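import Vale.Agent.P240.WB.B6

/-!
P240-W1. Abstract lemmas on `eu` (= minus the reduced Euler characteristic of a finite set `S` in a
partial order, `eu S = sum over strict chains of (-1)^length`, empty chain included).

Tools (all in namespace `Vale.Agent.P240.K`): `eu_rec` (recursion with `{y | y ∈ S ∧ y < x}`),
`eu_rec'` (recursion with `{y | y ∈ S ∧ x < y}`), `eu_top` (largest element gives `0`),
`eu_coreflect`, `eu_dual` (`eu` of the dual order), `eu_image`, `eu_emb`.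

`eu_bot`: apply `eu_top` to `OrderDual.ofDual ⁻¹' S` and `eu_dual`.
`eu_reflect`: apply `eu_coreflect` in the dual order and `eu_dual`.
`eu_fibre`: put `m x = - eu {y | y ∈ S ∧ y < x}`. By `eu_rec`, `eu S = 1 + ∑ x ∈ S, m x` and (the
set `{x | x ∈ S ∧ f x ≤ t}` being closed under going down in `S`)
`eu {x | x ∈ S ∧ f x ≤ t} = 1 + ∑ x ∈ S, if f x ≤ t then m x else 0`. By `eu_rec'` in `T`,
`∑ t ∈ T with t' ≤ t, eu {s | s ∈ T ∧ t < s} = 1` for every `t' ∈ T` (split off `t = t'`; compare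
`sum_kp` in the library), for `t' = b` this is the sum over all of `T`. Exchange the sums (compare
`eu_cover`).
`eu_attach`: strong induction on `Nat.card S`. Write `U = S \ B`. By `eu_rec` for `S`, `U` and the
sets `{y | y ∈ U ∧ F < y}` it suffices that for every `x ∈ U`
`eu {y | y ∈ S ∧ y < x} = eu {y | y ∈ U ∧ y < x} - ∑ F ∈ B with F < x, eu {y | y ∈ S ∧ y < F} *
 eu {y | y ∈ U ∧ F < y ∧ y < x}`, which is the induction hypothesis for `{y | y ∈ S ∧ y < x}`.
-/

namespace Vale.Agent.P240.K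

open Finsupp Subgroup

section
variable {α β : Type*} [PartialOrder α] [PartialOrder β] {S : Set α}

lemma eu_bot (hS : S.Finite) {m : α} (hm : m ∈ S) (hmin : ∀ x ∈ S, m ≤ x) : eu S = 0 := by
  have hS' : (OrderDual.ofDual ⁻¹' S : Set αᵒᵈ).Finite := hS
  rw [← eu_dual]
  exact eu_top hS' (m := OrderDual.toDual m) hm (fun x hx => hmin _ hx)

/-- a reflective subset has the same Euler characteristic -/
lemma eu_reflect (ρ : α → α) (S F : Set α) (hS : S.Finite) (hFS : F ⊆ S)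
    (hρ : ∀ x ∈ S, ρ x ∈ F) (hle : ∀ x ∈ S, x ≤ ρ x)
    (hun : ∀ x ∈ S, ∀ y ∈ F, x ≤ y → ρ x ≤ y) : eu S = eu F := by
  have hS' : (OrderDual.ofDual ⁻¹' S : Set αᵒᵈ).Finite := hS
  rw [← eu_dual S, ← eu_dual F]
  exact eu_coreflect (α := αᵒᵈ) (fun x => OrderDual.toDual (ρ (OrderDual.ofDual x))) _ _ _ hS' rfl
    (fun x hx => hFS hx) (fun x hx => hρ _ hx) (fun x hx => hle _ hx)
    (fun x hx y hy h => hun _ hx _ hy h)

/-- the weights above the elements `≥ t'` have sum `1` -/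
lemma sum_weights {T : Set β} (hT : T.Finite) [∀ x y : β, Decidable (x ≤ y)] {t' : β} (ht' : t' ∈ T) :
    ∑ t ∈ hT.toFinset, (if t' ≤ t then eu {s | s ∈ T ∧ t < s} else 0) = 1 := by
  classical
  have hS : {s | s ∈ T ∧ t' < s}.Finite := hT.subset fun s hs => hs.1
  have h1 : (hT.toFinset.filter fun t => t' ≤ t) = insert t' hS.toFinset := by
    ext x
    rw [Finset.mem_filter, Finset.mem_insert, Set.Finite.mem_toFinset, Set.Finite.mem_toFinset]
    constructor
    · rintro ⟨h1, h2⟩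
      rcases h2.eq_or_lt with h | h
      · exact Or.inl h.symm
      · exact Or.inr ⟨h1, h⟩
    · rintro (h | h)
      · subst h
        exact ⟨ht', le_rfl⟩
      · exact ⟨h.1, h.2.le⟩
  have h2 : t' ∉ hS.toFinset := by
    rw [Set.Finite.mem_toFinset]
    exact fun h => lt_irrefl _ h.2
  rw [← Finset.sum_filter, h1, Finset.sum_insert h2]
  have h3 := eu_rec' hS
  have h4 : ∀ x ∈ hS.toFinset, eu {y | y ∈ {s | s ∈ T ∧ t' < s} ∧ x < y} = eu {s | s ∈ T ∧ x < s} := by
    intro x hx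
    rw [Set.Finite.mem_toFinset] at hx
    congr 1
    ext y
    exact ⟨fun h => ⟨h.1.1, h.2⟩, fun h => ⟨⟨h.1, hx.2.trans h.2⟩, h.2⟩⟩
  rw [Finset.sum_congr rfl h4] at h3
  rw [h3]
  ring

/-- fibre formula -/
lemma eu_fibre (f : α → β) {T : Set β} (hS : S.Finite) (hT : T.Finite)
    (hf : ∀ x ∈ S, f x ∈ T) (hmono : ∀ x ∈ S, ∀ y ∈ S, x ≤ y → f x ≤ f y)
    {b : β} (hb : b ∈ T) (hbot : ∀ t ∈ T, b ≤ t) :
    eu S = ∑ t ∈ hT.toFinset, eu {x | x ∈ S ∧ f x ≤ t} * eu {s | s ∈ T ∧ t < s} := by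
  classical
  have h1 : ∀ t, eu {x | x ∈ S ∧ f x ≤ t} =
      1 - ∑ x ∈ hS.toFinset, if f x ≤ t then eu {y | y ∈ S ∧ y < x} else 0 := by
    intro t
    have hSt : {x | x ∈ S ∧ f x ≤ t}.Finite := hS.subset fun x hx => hx.1
    rw [eu_rec hSt, ← Finset.sum_filter]
    have h2 : (hS.toFinset.filter fun x => f x ≤ t) = hSt.toFinset := by
      ext x
      rw [Finset.mem_filter, Set.Finite.mem_toFinset, Set.Finite.mem_toFinset]
      exact Iff.rfl
    rw [h2]
    congr 1
    refine Finset.sum_congr rfl fun x hx => ?_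
    rw [Set.Finite.mem_toFinset] at hx
    congr 1
    ext y
    exact ⟨fun h => ⟨h.1.1, h.2⟩,
      fun h => ⟨⟨h.1, (hmono y h.1 x hx.1 h.2.le).trans hx.2⟩, h.2⟩⟩
  have h3 : ∑ t ∈ hT.toFinset, eu {s | s ∈ T ∧ t < s} = 1 := by
    rw [← sum_weights hT hb]
    refine Finset.sum_congr rfl fun t ht => ?_
    rw [Set.Finite.mem_toFinset] at ht
    rw [if_pos (hbot t ht)]
  have h4 : ∀ t ∈ hT.toFinset, eu {x | x ∈ S ∧ f x ≤ t} * eu {s | s ∈ T ∧ t < s} =
      eu {s | s ∈ T ∧ t < s} - ∑ x ∈ hS.toFinset, eu {y | y ∈ S ∧ y < x} *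
        (if f x ≤ t then eu {s | s ∈ T ∧ t < s} else 0) := by
    intro t _
    rw [h1 t, sub_mul, one_mul, Finset.sum_mul]
    congr 1
    refine Finset.sum_congr rfl fun x _ => ?_
    split_ifs
    · rfl
    · rw [zero_mul, mul_zero]
  rw [Finset.sum_congr rfl h4, Finset.sum_sub_distrib, h3, Finset.sum_comm, eu_rec hS]
  congr 1
  refine Finset.sum_congr rfl fun x hx => ?_
  rw [Set.Finite.mem_toFinset] at hx
  rw [← Finset.mul_sum, sum_weights hT (hf x hx), mul_one]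

/-- attaching a down-closed part -/
lemma eu_attach_aux : ∀ (n : ℕ) (S B : Set α) (hS : S.Finite) (hB : B ⊆ S), Nat.card S = n →
    (∀ x ∈ B, ∀ y ∈ S, y ≤ x → y ∈ B) →
    eu S = eu (S \ B) - ∑ F ∈ (hS.subset hB).toFinset,
      eu {y | y ∈ S ∧ y < F} * eu {y | y ∈ S \ B ∧ F < y} := by
  classical
  intro n
  induction n using Nat.strong_induction_on with
  | _ n ih =>
    intro S B hS hB hn hdown
    have hU : (S \ B).Finite := hS.subset Set.sdiff_subset
    have hBf : B.Finite := hS.subset hB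
    have hlt : ∀ x ∈ S, Nat.card {y | y ∈ S ∧ y < x} < n := by
      intro x hx
      rw [← hn]
      refine Set.Finite.card_lt_card hS ⟨fun y hy => hy.1, fun h => ?_⟩
      exact lt_irrefl x (h hx).2
    -- the recursion for the sets below an element of the complement
    have h1 : ∀ x ∈ hU.toFinset, eu {y | y ∈ S ∧ y < x} = eu {y | y ∈ S \ B ∧ y < x} -
        ∑ F ∈ hBf.toFinset, eu {y | y ∈ S ∧ y < F} *
          (if F < x then eu {y | y ∈ {y | y ∈ S \ B ∧ F < y} ∧ y < x} else 0) := by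
      intro x hx
      rw [Set.Finite.mem_toFinset] at hx
      have hSx : {y | y ∈ S ∧ y < x}.Finite := hS.subset fun y hy => hy.1
      have hBx : {y | y ∈ B ∧ y < x} ⊆ {y | y ∈ S ∧ y < x} := fun y hy => ⟨hB hy.1, hy.2⟩
      have h2 := ih _ (hlt x hx.1) {y | y ∈ S ∧ y < x} {y | y ∈ B ∧ y < x} hSx hBx rfl
        (fun y hy z hz hzy => ⟨hdown y hy.1 z hz.1 hzy, hz.2⟩)
      rw [h2]
      have h3 : {y | y ∈ S ∧ y < x} \ {y | y ∈ B ∧ y < x} = {y | y ∈ S \ B ∧ y < x} := by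
        ext y
        constructor
        · rintro ⟨h4, h5⟩
          exact ⟨⟨h4.1, fun h => h5 ⟨h, h4.2⟩⟩, h4.2⟩
        · rintro ⟨h4, h5⟩
          exact ⟨⟨h4.1, h5⟩, fun h => h4.2 h.1⟩
      rw [h3]
      congr 1
      have h4 : (hSx.subset hBx).toFinset = hBf.toFinset.filter fun F => F < x := by
        ext y
        rw [Finset.mem_filter, Set.Finite.mem_toFinset, Set.Finite.mem_toFinset]
        exact Iff.rfl
      rw [h4, Finset.sum_filter]
      refine Finset.sum_congr rfl fun F _ => ?_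
      split_ifs with hFx
      · have h5 : {y | y ∈ {y | y ∈ S ∧ y < x} ∧ y < F} = {y | y ∈ S ∧ y < F} := by
          ext y
          exact ⟨fun h => ⟨h.1.1, h.2⟩, fun h => ⟨⟨h.1, h.2.trans hFx⟩, h.2⟩⟩
        have h6 : {y | y ∈ {y | y ∈ S \ B ∧ y < x} ∧ F < y} =
            {y | y ∈ {y | y ∈ S \ B ∧ F < y} ∧ y < x} := by
          ext y
          exact ⟨fun h => ⟨⟨h.1.1, h.2⟩, h.1.2⟩, fun h => ⟨⟨h.1.1, h.2⟩, h.1.2⟩⟩
        rw [h5, h6]
      · rw [mul_zero]
    -- the recursion above an element of `B`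
    have h7 : ∀ F ∈ hBf.toFinset, eu {y | y ∈ S ∧ y < F} * eu {y | y ∈ S \ B ∧ F < y} =
        eu {y | y ∈ S ∧ y < F} - ∑ x ∈ hU.toFinset, eu {y | y ∈ S ∧ y < F} *
          (if F < x then eu {y | y ∈ {y | y ∈ S \ B ∧ F < y} ∧ y < x} else 0) := by
      intro F _
      have hUF : {y | y ∈ S \ B ∧ F < y}.Finite := hU.subset fun y hy => hy.1
      rw [eu_rec hUF, mul_sub, mul_one, ← Finset.mul_sum]
      congr 2
      have h8 : hUF.toFinset = hU.toFinset.filter fun x => F < x := by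
        ext y
        rw [Finset.mem_filter, Set.Finite.mem_toFinset, Set.Finite.mem_toFinset]
        exact Iff.rfl
      rw [h8, Finset.sum_filter]
    have h9 : hS.toFinset = hBf.toFinset ∪ hU.toFinset := by
      ext y
      rw [Finset.mem_union, Set.Finite.mem_toFinset, Set.Finite.mem_toFinset,
        Set.Finite.mem_toFinset]
      constructor
      · intro hy
        by_cases h : y ∈ B
        · exact Or.inl h
        · exact Or.inr ⟨hy, h⟩
      · rintro (h | h)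
        · exact hB h
        · exact h.1
    have h10 : Disjoint hBf.toFinset hU.toFinset := by
      rw [Finset.disjoint_left]
      intro y hy hy'
      rw [Set.Finite.mem_toFinset] at hy hy'
      exact hy'.2 hy
    have e1 : eu S = 1 - (∑ x ∈ hBf.toFinset, eu {y | y ∈ S ∧ y < x} +
        ∑ x ∈ hU.toFinset, eu {y | y ∈ S ∧ y < x}) := by
      rw [eu_rec hS, h9, Finset.sum_union h10]
    have e2 : ∑ x ∈ hU.toFinset, eu {y | y ∈ S ∧ y < x} =
        ∑ x ∈ hU.toFinset, eu {y | y ∈ S \ B ∧ y < x} -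
        ∑ F ∈ hBf.toFinset, ∑ x ∈ hU.toFinset, eu {y | y ∈ S ∧ y < F} *
          (if F < x then eu {y | y ∈ {y | y ∈ S \ B ∧ F < y} ∧ y < x} else 0) := by
      rw [Finset.sum_congr rfl h1, Finset.sum_sub_distrib]
      congr 1
      exact Finset.sum_comm
    have e3 : ∑ F ∈ (hS.subset hB).toFinset, eu {y | y ∈ S ∧ y < F} * eu {y | y ∈ S \ B ∧ F < y} =
        ∑ F ∈ hBf.toFinset, eu {y | y ∈ S ∧ y < F} -
        ∑ F ∈ hBf.toFinset, ∑ x ∈ hU.toFinset, eu {y | y ∈ S ∧ y < F} *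
          (if F < x then eu {y | y ∈ {y | y ∈ S \ B ∧ F < y} ∧ y < x} else 0) := by
      rw [← Finset.sum_sub_distrib]
      exact Finset.sum_congr rfl h7
    rw [e1, e2, e3, eu_rec hU]
    ring

/-- attaching a down-closed part -/
lemma eu_attach (hS : S.Finite) {B : Set α} (hB : B ⊆ S)
    (hdown : ∀ x ∈ B, ∀ y ∈ S, y ≤ x → y ∈ B) :
    eu S = eu (S \ B) - ∑ F ∈ (hS.subset hB).toFinset,
      eu {y | y ∈ S ∧ y < F} * eu {y | y ∈ S \ B ∧ F < y} :=
  eu_attach_aux _ S B hS hB rfl hdown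

end

end Vale.Agent.P240.K
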