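import Vale.Agent.P240.W.CDefs

/-!
P240-C1. Subnormal nonabelian simple subgroups commute.

Library: `Mathlib/GroupTheory/IsSubnormal.lean` (`IsSubnormal.lt_normal`, `IsSubnormal.subgroupOf`,
`IsSubnormal.trans`, ...), three subgroups lemma (`Subgroup.commutator_commutator_eq_bot_of_rotate`).

`comm_normal`: `L` simple nonabelian and subnormal in the finite group `G`, `N` normal in `G`,
`¬ L ≤ N`. Then `L` and `N` commute elementwise. Induction on `Nat.card G` (for all groups in the
universe). If `L = ⊤`, then `N = ⊥` since `G` is simple. Otherwise there is a normal `K < ⊤` with `L ≤ K`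
(`IsSubnormal.lt_normal`); `L` is subnormal in `K` and `¬ L ≤ N ⊓ K`; by induction in the group `K`,
`L` commutes with `N ⊓ K`. As `⁅N, L⁆ ≤ N ⊓ K`, we have `⁅⁅N, L⁆, L⁆ = ⊥` and `⁅⁅L, N⁆, L⁆ = ⊥`, hence
`⁅⁅L, L⁆, N⁆ = ⊥` by the three subgroups lemma, and `⁅L, L⁆ = L` (simple nonabelian).

`comp_comm'`: `L ≠ M` two such subgroups. Induction on `Nat.card G`. If `L = ⊤`, then `M = ⊥` or `M = ⊤`
(`eq_bot_or_top_of_isSimpleGroup`; transport along `L = ⊤`), contradiction; in the same way `M ≠ ⊤`.
Let `K < ⊤` be normal with `L ≤ K`. If `M ≤ K`, use the induction hypothesis in `K`. If not, `M` and `K`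
commute elementwise by `comm_normal`, and `L ≤ K`.
-/

namespace Vale.Agent.P240.K

open Subgroup

universe u

theorem comp_subgroupOf {G : Type u} [Group G] {L K : Subgroup G} (hL : L ∈ Components G)
    (hLK : L ≤ K) : L.subgroupOf K ∈ Components K := by
  obtain ⟨h1, h2, h3⟩ := hL
  refine ⟨h1.subgroupOf, ?_, ?_⟩
  · haveI := h2
    exact (Subgroup.subgroupOfEquivOfLe hLK).isSimpleGroup
  · intro h
    apply h3
    intro x hx y hy
    have := h ⟨x, hLK hx⟩ (mem_subgroupOf.2 hx) ⟨y, hLK hy⟩ (mem_subgroupOf.2 hy)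
    exact congrArg Subtype.val this

theorem comp_commutator {G : Type u} [Group G] {L : Subgroup G} (hL : L ∈ Components G) :
    ⁅L, L⁆ = L := by
  obtain ⟨h1, h2, h3⟩ := hL
  have := h2
  have h4 : ⁅(⊤ : Subgroup L), (⊤ : Subgroup L)⁆ = ⊤ := by
    rcases IsSimpleGroup.eq_bot_or_eq_top_of_normal ⁅(⊤ : Subgroup L), (⊤ : Subgroup L)⁆
      inferInstance with h | h
    · exfalso
      apply h3
      intro x hx y hy
      have h5 := commutator_eq_bot_iff_le_centralizer.1 h (mem_top (⟨x, hx⟩ : L))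
      have h6 := mem_centralizer_iff.1 h5 ⟨y, hy⟩ (Set.mem_univ _)
      exact (congrArg Subtype.val h6).symm
    · exact h
  have h7 := congrArg (Subgroup.map L.subtype) h4
  rw [map_commutator] at h7
  simpa [← MonoidHom.range_eq_map, range_subtype] using h7

theorem comp_ne_bot {G : Type u} [Group G] {L : Subgroup G} (hL : L ∈ Components G) :
    L ≠ ⊥ := by
  rintro rfl
  apply hL.2.2
  intro x hx y hy
  rw [mem_bot.1 hx, mem_bot.1 hy]

theorem simple_of_top {G : Type u} [Group G] (hL : (⊤ : Subgroup G) ∈ Components G) :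
    IsSimpleGroup G := by
  have := hL.2.1
  exact (Subgroup.topEquiv (G := G)).symm.isSimpleGroup

theorem card_lt_of_lt' {G : Type u} [Group G] [Finite G] {H K : Subgroup G} (h : H < K) :
    Nat.card H < Nat.card K := by
  have h1 : (H : Set G) ⊂ (K : Set G) := h
  have h2 := Set.ncard_lt_ncard h1 (Set.toFinite _)
  rwa [← Nat.card_coe_set_eq, ← Nat.card_coe_set_eq] at h2

theorem comm_normal_aux (n : ℕ) : ∀ {G : Type u} [Group G] [Finite G], Nat.card G = n →
    ∀ {L N : Subgroup G}, L ∈ Components G → N.Normal → ¬ L ≤ N →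
    ∀ x ∈ L, ∀ y ∈ N, x * y = y * x := by
  induction n using Nat.strong_induction_on with
  | _ n ih =>
  intro G _ _ hn L N hL hN h
  rcases hL.1.lt_normal with rfl | ⟨K, hK, hLK, hKt⟩
  · haveI := simple_of_top hL
    rcases hN.eq_bot_or_eq_top with rfl | rfl
    · intro x _ y hy
      rw [mem_bot.1 hy, mul_one, one_mul]
    · exact absurd le_rfl h
  · have hcard : Nat.card K < n := by
      rw [← hn, ← Subgroup.card_top (G := G)]
      exact card_lt_of_lt' hKt
    have h1 : ∀ x ∈ L, ∀ y ∈ N ⊓ K, x * y = y * x := by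
      intro x hx y hy
      have hN' : (N.subgroupOf K).Normal := normal_subgroupOf
      have h2 := ih _ hcard (G := K) rfl (comp_subgroupOf hL hLK) hN' (fun h3 => h (fun z hz =>
        mem_subgroupOf.1 (h3 (mem_subgroupOf.2 hz : (⟨z, hLK hz⟩ : K) ∈ L.subgroupOf K))))
      exact congrArg Subtype.val (h2 ⟨x, hLK hx⟩ (mem_subgroupOf.2 hx) ⟨y, hy.2⟩
        (mem_subgroupOf.2 hy.1))
    have h4 : ⁅N, L⁆ ≤ N ⊓ K := by
      rw [commutator_le]
      intro a ha b hb
      rw [commutatorElement_def]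
      refine ⟨?_, ?_⟩
      · have := N.mul_mem ha (hN.conj_mem a⁻¹ (N.inv_mem ha) b)
        simpa [mul_assoc] using this
      · exact K.mul_mem (hK.conj_mem b (hLK hb) a) (K.inv_mem (hLK hb))
    have h5 : ⁅⁅N, L⁆, L⁆ = ⊥ := by
      rw [commutator_eq_bot_iff_le_centralizer]
      intro a ha
      rw [mem_centralizer_iff]
      intro b hb
      exact h1 b hb a (h4 ha)
    have h6 : ⁅⁅L, N⁆, L⁆ = ⊥ := by
      rw [commutator_comm L N]
      exact h5
    have h7 := commutator_commutator_eq_bot_of_rotate h6 h5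
    rw [comp_commutator hL, commutator_eq_bot_iff_le_centralizer] at h7
    intro x hx y hy
    exact (mem_centralizer_iff.1 (h7 hx) y hy).symm

theorem comm_normal {G : Type u} [Group G] [Finite G] {L N : Subgroup G} (hL : L ∈ Components G)
    (hN : N.Normal) (h : ¬ L ≤ N) : ∀ x ∈ L, ∀ y ∈ N, x * y = y * x :=
  comm_normal_aux _ rfl hL hN h

theorem comp_comm_aux (n : ℕ) : ∀ {G : Type u} [Group G] [Finite G], Nat.card G = n →
    ∀ {L M : Subgroup G}, L ∈ Components G → M ∈ Components G → L ≠ M →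
    ∀ x ∈ L, ∀ y ∈ M, x * y = y * x := by
  induction n using Nat.strong_induction_on with
  | _ n ih =>
  intro G _ _ hn L M hL hM h
  rcases hL.1.lt_normal with rfl | ⟨K, hK, hLK, hKt⟩
  · have := simple_of_top hL
    rcases hM.1.eq_bot_or_top_of_isSimpleGroup this with h1 | h1
    · exact absurd h1 (comp_ne_bot hM)
    · exact absurd h1.symm h
  · by_cases hMK : M ≤ K
    · have hcard : Nat.card K < n := by
        rw [← hn, ← Subgroup.card_top (G := G)]
        exact card_lt_of_lt' hKt
      intro x hx y hy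
      have h2 := ih _ hcard (G := K) rfl (comp_subgroupOf hL hLK) (comp_subgroupOf hM hMK)
        (fun h3 => h (by
          rw [← map_subgroupOf_eq_of_le hLK, ← map_subgroupOf_eq_of_le hMK, h3]))
      exact congrArg Subtype.val (h2 ⟨x, hLK hx⟩ (mem_subgroupOf.2 hx) ⟨y, hMK hy⟩
        (mem_subgroupOf.2 hy))
    · intro x hx y hy
      exact (comm_normal hM hK hMK y hy x (hLK hx)).symm

theorem comp_comm' {G : Type u} [Group G] [Finite G] {L M : Subgroup G} (hL : L ∈ Components G)
    (hM : M ∈ Components G) (h : L ≠ M) : ∀ x ∈ L, ∀ y ∈ M, x * y = y * x :=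
  comp_comm_aux _ rfl hL hM h

end Vale.Agent.P240.K
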