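import Vale.Agent.P240.W.CDefs

/-!
P240-C2. Subnormal `p`-subgroups and `p'`-subgroups are contained in normal ones.

`subnormal_p'`: let `Q` be subnormal in the finite group `G`, `p ∤ Nat.card Q`. Then there is a normal
subgroup `N` of `G` with `Q ≤ N` and `p ∤ Nat.card N`. Induction on `Nat.card G` (all groups in the universe).
If `Q = ⊤`, take `N = ⊤`. Otherwise there is a normal `K < ⊤` with `Q ≤ K` (`IsSubnormal.lt_normal`), `Q` is
subnormal in `K`, so there is a subgroup `R`, `Q ≤ R ≤ K`, `K ≤ normalizer R`, `p ∤ Nat.card R`. Let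
`N = ⨆ g : G, R.map (MulAut.conj g).toMonoidHom`; it is normal, and all these conjugates are contained in and normalized
by `K`, of order prime to `p`; the join of two subgroups `A`, `B` of `K` of order prime to `p` and normalized
by `K` has the same properties (`card (A ⊔ B)` divides `card A * card B`). So `p ∤ Nat.card N`
(induction over the finite set of conjugates).
`subnormal_p`: the same for `p`-groups (`IsPGroup p`, product of two normal `p`-subgroups:
`IsPGroup.to_sup_of_normal_left'` or similar).
-/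

namespace Vale.Agent.P240.K

open Subgroup

universe u

section
variable {G : Type u} [Group G]

theorem cb_map_map (x g : G) (R : Subgroup G) :
    (R.map (MulAut.conj g).toMonoidHom).map (MulAut.conj x).toMonoidHom =
      R.map (MulAut.conj (x * g)).toMonoidHom := by
  rw [Subgroup.map_map, map_mul]
  rfl

theorem cb_mem_normalizer {g : G} {R : Subgroup G} :
    g ∈ normalizer (R : Set G) ↔ R.map (MulAut.conj g).toMonoidHom = R :=
  mem_normalizer_iff_map_conj_eq

theorem cb_map_one (R : Subgroup G) : R.map (MulAut.conj (1 : G)).toMonoidHom = R :=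
  cb_mem_normalizer.1 (one_mem _)

/-- the closure of a subnormal subgroup in a class of subgroups which is closed under joins
normalized by one factor -/
theorem cb_aux [Finite G] (Φ : Subgroup G → Prop) (hbot : Φ ⊥)
    (hcj : ∀ (g : G) (R : Subgroup G), Φ R → Φ (R.map (MulAut.conj g).toMonoidHom))
    (hsup : ∀ A B : Subgroup G, Φ A → Φ B → B ≤ normalizer (A : Set G) → Φ (A ⊔ B))
    {Q : Subgroup G} (hQ : Q.IsSubnormal) :
    ∀ R : Subgroup G, R ≤ Q → Q ≤ normalizer (R : Set G) → Φ R →
      ∃ N : Subgroup G, N.Normal ∧ R ≤ N ∧ Φ N := by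
  classical
  induction hQ with
  | top =>
    intro R _ h2 h3
    exact ⟨R, normalizer_eq_top_iff.1 (top_le_iff.1 h2), le_rfl, h3⟩
  | step H K h_le hK hN ih =>
    intro R hRH hHR hΦ
    have hKH : K ≤ normalizer (H : Set G) := (normal_subgroupOf_iff_le_normalizer h_le).1 hN
    have hHmap : ∀ g ∈ K, H.map (MulAut.conj g).toMonoidHom = H := fun g hg =>
      cb_mem_normalizer.1 (hKH hg)
    have ha : ∀ g ∈ K, R.map (MulAut.conj g).toMonoidHom ≤ H := fun g hg =>
      (Subgroup.map_mono hRH).trans (hHmap g hg).le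
    have hb : ∀ g ∈ K, H ≤ normalizer ((R.map (MulAut.conj g).toMonoidHom : Subgroup G) : Set G) :=
      fun g hg => (hHmap g hg).ge.trans
        ((Subgroup.map_mono hHR).trans (le_normalizer_map _))
    have : Fintype K := Fintype.ofFinite K
    have hT : ∀ s : Finset K, Φ (s.sup fun g => R.map (MulAut.conj (g : G)).toMonoidHom) ∧
        (s.sup fun g => R.map (MulAut.conj (g : G)).toMonoidHom) ≤ H ∧
        H ≤ normalizer ((s.sup fun g => R.map (MulAut.conj (g : G)).toMonoidHom :
          Subgroup G) : Set G) := by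
      intro s
      induction s using Finset.induction_on with
      | empty =>
        refine ⟨hbot, bot_le, ?_⟩
        rw [Finset.sup_empty]
        intro x _
        rw [cb_mem_normalizer, Subgroup.map_bot]
      | insert g s _ ih2 =>
        obtain ⟨i1, i2, i3⟩ := ih2
        rw [Finset.sup_insert]
        refine ⟨hsup _ _ (hcj _ _ hΦ) i1 (i2.trans (hb g g.2)), sup_le (ha g g.2) i2, ?_⟩
        exact (le_inf (hb g g.2) i3).trans (normalizer_inf_normalizer_le_normalizer_sup _ _)
    obtain ⟨t1, t2, t3⟩ := hT Finset.univ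
    set R' : Subgroup G := Finset.univ.sup fun g : K => R.map (MulAut.conj (g : G)).toMonoidHom
      with hR'
    have hR'2 : R' = ⨆ g : K, R.map (MulAut.conj (g : G)).toMonoidHom :=
      Finset.sup_univ_eq_iSup _
    have hRR' : R ≤ R' := by
      have h1 : R.map (MulAut.conj ((1 : K) : G)).toMonoidHom ≤ R' := by
        rw [hR'2]
        exact le_iSup (fun g : K => R.map (MulAut.conj (g : G)).toMonoidHom) 1
      rw [OneMemClass.coe_one, cb_map_one] at h1
      exact h1
    have hKR' : K ≤ normalizer (R' : Set G) := by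
      intro x hx
      rw [cb_mem_normalizer, hR'2, Subgroup.map_iSup]
      have h1 : ∀ g : K, (R.map (MulAut.conj (g : G)).toMonoidHom).map
          (MulAut.conj x).toMonoidHom =
          R.map (MulAut.conj ((Equiv.mulLeft (⟨x, hx⟩ : K) g : K) : G)).toMonoidHom := by
        intro g
        rw [cb_map_map]
        rfl
      rw [iSup_congr h1]
      exact (Equiv.mulLeft (⟨x, hx⟩ : K)).iSup_comp
        (g := fun g : K => R.map (MulAut.conj (g : G)).toMonoidHom)
    obtain ⟨N, hN1, hN2, hN3⟩ := ih R' (t2.trans h_le) hKR' t1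
    exact ⟨N, hN1, hRR'.trans hN2, hN3⟩

theorem cb_card_sup [Finite G] (A B : Subgroup G) (h : B ≤ normalizer (A : Set G)) :
    Nat.card (A ⊔ B : Subgroup G) ∣ Nat.card A * Nat.card B := by
  have i1 := Subgroup.normal_subgroupOf_of_le_normalizer h
  have i2 := Subgroup.normal_subgroupOf_sup_of_le_normalizer h
  have h1 : A.relIndex (B ⊔ A) = A.relIndex B :=
    (Nat.card_congr (QuotientGroup.quotientInfEquivProdNormalizerQuotient B A h).toEquiv).symm
  have h2 : Nat.card A * A.relIndex (B ⊔ A) = Nat.card (B ⊔ A : Subgroup G) := by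
    rw [← relIndex_bot_left, ← relIndex_bot_left]
    exact relIndex_mul_relIndex ⊥ A (B ⊔ A) bot_le le_sup_right
  rw [sup_comm, ← h2, h1]
  exact Nat.mul_dvd_mul_left _ (relIndex_dvd_card _ _)

end

theorem subnormal_p' {G : Type u} [Group G] [Finite G] {p : ℕ} [hp : Fact p.Prime] {Q : Subgroup G}
    (hQ : Q.IsSubnormal) (h : ¬ p ∣ Nat.card Q) :
    ∃ N : Subgroup G, N.Normal ∧ Q ≤ N ∧ ¬ p ∣ Nat.card N := by
  refine cb_aux (fun R => ¬ p ∣ Nat.card R) ?_ ?_ ?_ hQ Q le_rfl le_normalizer h
  · rw [Subgroup.card_bot]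
    exact hp.out.one_lt.ne' ∘ Nat.dvd_one.1
  · intro g R hR
    rw [Nat.card_congr (R.equivMapOfInjective _ (MulAut.conj g).injective).symm.toEquiv]
    exact hR
  · intro A B hA hB hAB hdvd
    rcases (hp.out.dvd_mul).1 (hdvd.trans (cb_card_sup A B hAB)) with h1 | h1
    · exact hA h1
    · exact hB h1

theorem subnormal_p {G : Type u} [Group G] [Finite G] {p : ℕ} [hp : Fact p.Prime] {Q : Subgroup G}
    (hQ : Q.IsSubnormal) (h : IsPGroup p Q) :
    ∃ N : Subgroup G, N.Normal ∧ Q ≤ N ∧ IsPGroup p N := by
  refine cb_aux (fun R => IsPGroup p R) IsPGroup.of_bot ?_ ?_ hQ Q le_rfl le_normalizer h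
  · intro g R hR
    exact hR.map _
  · intro A B hA hB hAB
    exact hA.to_sup_of_normal_left' hB hAB

end Vale.Agent.P240.K
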