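import Vale.Agent.P240.W.CA
import Vale.Agent.P240.W.CB

/-!
P240-C3. The components form a family.

Assume `O_p(G) = O_{p'}(G) = 1`.
`comp_centralizer`: let `C = ⨅ L ∈ Components G, centralizer L`, a normal subgroup of `G`. Assume `C ≠ ⊥`.
Choose a subnormal subgroup `M ≠ ⊥` of `G` with `M ≤ C` of minimal order. Then `M` is a simple group (a
normal subgroup of `M` is subnormal in `G`). If `M` is abelian, its order is a prime `q`; if `q = p`,
`subnormal_p` and `OpTrivial` give `M = ⊥`; if `q ≠ p`, `subnormal_p'` and `h2` give `M = ⊥`. If `M` is not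
abelian, `M ∈ Components G`, so `M ≤ C ≤ centralizer M`, a contradiction.
`comp_family`: `conj`: images of subnormal (simple, nonabelian) subgroups under the automorphism
`MulAut.conj g` (`IsSubnormal.map`). `comm`: `comp_comm'`. `centre`: `L ⊓ centralizer L` corresponds to the
centre of the nonabelian simple group `L`, so it is trivial. `dvd`: otherwise `subnormal_p'` and `h2` give
`L = ⊥`. `faithful`: `comp_centralizer`.
-/

namespace Vale.Agent.P240.K

open Subgroup

universe u

/-- A conjugate of a component is a component. -/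
theorem comp_conj {G : Type u} [Group G] {L : Subgroup G} (hL : L ∈ Components G) (g : G) :
    L.map (MulAut.conj g).toMonoidHom ∈ Components G := by
  obtain ⟨h1, h2, h3⟩ := hL
  refine ⟨h1.map (MulAut.conj g).surjective, ?_, ?_⟩
  · have := h2
    exact (L.equivMapOfInjective _ (MulAut.conj g).injective).symm.isSimpleGroup
  · intro h
    apply h3
    intro x hx y hy
    have h4 := h _ (mem_map_of_mem _ hx) _ (mem_map_of_mem _ hy)
    rw [← map_mul, ← map_mul] at h4
    exact (MulAut.conj g).injective h4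

theorem comp_inf_centralizer {G : Type u} [Group G] {L : Subgroup G} (hL : L ∈ Components G) :
    L ⊓ centralizer (L : Set G) = ⊥ := by
  obtain ⟨_, h2, h3⟩ := hL
  have := h2
  rcases (inferInstance : (center L).Normal).eq_bot_or_eq_top with h | h
  · rw [eq_bot_iff]
    rintro x ⟨hx, hxc⟩
    have h4 : (⟨x, hx⟩ : L) ∈ center L := by
      rw [mem_center_iff]
      intro y
      exact Subtype.ext (mem_centralizer_iff.1 hxc y y.2)
    rw [h, mem_bot] at h4
    exact mem_bot.2 (congrArg Subtype.val h4)
  · exfalso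
    apply h3
    intro x hx y hy
    have h4 : (⟨x, hx⟩ : L) ∈ center L := h ▸ mem_top _
    exact (congrArg Subtype.val (mem_center_iff.1 h4 ⟨y, hy⟩)).symm

/-- A minimal nontrivial subnormal subgroup inside a given subnormal subgroup is simple. -/
theorem exists_simple_subnormal {G : Type u} [Group G] [Finite G] {C : Subgroup G}
    (hC : C.IsSubnormal) (hC1 : C ≠ ⊥) :
    ∃ M : Subgroup G, M.IsSubnormal ∧ M ≠ ⊥ ∧ M ≤ C ∧ IsSimpleGroup M := by
  obtain ⟨M, ⟨m1, m2, m3⟩, hmin⟩ := WellFounded.has_min
    (measure (fun M : Subgroup G => Nat.card M)).wf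
    {M : Subgroup G | M.IsSubnormal ∧ M ≠ ⊥ ∧ M ≤ C} ⟨C, hC, hC1, le_rfl⟩
  refine ⟨M, m1, m2, m3, ?_⟩
  have hnt : Nontrivial M := (nontrivial_iff_ne_bot M).2 m2
  refine { eq_bot_or_eq_top_of_normal := fun H hH => ?_ }
  by_cases hb : H = ⊥
  · exact Or.inl hb
  · refine Or.inr ?_
    have h1 : (H.map M.subtype).IsSubnormal := hH.isSubnormal.trans' m1
    have h2 : H.map M.subtype ≠ ⊥ := by
      rw [Ne, Subgroup.map_eq_bot_iff_of_injective _ (subtype_injective M)]
      exact hb
    have h3 : H.map M.subtype ≤ M := map_subtype_le H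
    have h4 := hmin _ ⟨h1, h2, h3.trans m3⟩
    have h5 : H.map M.subtype = M := by
      by_contra hne
      exact h4 (card_lt_of_lt' (lt_of_le_of_ne h3 hne))
    rw [eq_top_iff]
    intro x _
    have h6 : (x : G) ∈ H.map M.subtype := h5.symm ▸ x.2
    obtain ⟨y, hy, hyx⟩ := h6
    rwa [← Subtype.ext hyx]

theorem comp_centralizer {G : Type u} [Group G] [Finite G] {p : ℕ} [hp : Fact p.Prime]
    (h1 : OpTrivial p G) (h2 : ∀ N : Subgroup G, N.Normal → ¬ p ∣ Nat.card N → N = ⊥) :
    (⨅ L ∈ Components G, centralizer (L : Set G) : Subgroup G) = ⊥ := by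
  by_contra hne
  have hmem : ∀ c : G, c ∈ (⨅ L ∈ Components G, centralizer (L : Set G) : Subgroup G) ↔
      ∀ L ∈ Components G, ∀ x ∈ L, x * c = c * x := by
    intro c
    simp only [mem_iInf, mem_centralizer_iff, SetLike.mem_coe]
  have hnorm : (⨅ L ∈ Components G, centralizer (L : Set G) : Subgroup G).Normal := by
    refine ⟨fun c hc g => ?_⟩
    rw [hmem] at hc ⊢
    intro L hL x hx
    have h3 := hc _ (comp_conj hL g⁻¹) (g⁻¹ * x * g) ⟨x, hx, by simp⟩
    have h4 : x * (g * c * g⁻¹) = g * ((g⁻¹ * x * g) * c) * g⁻¹ := by group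
    rw [h4, h3]
    group
  obtain ⟨M, m1, m2, m3, m4⟩ := exists_simple_subnormal hnorm.isSubnormal hne
  by_cases hab : ∀ x ∈ M, ∀ y ∈ M, x * y = y * x
  · by_cases hd : p ∣ Nat.card M
    · have hprime : (Nat.card M).Prime := by
        let _ : CommGroup M :=
          { (inferInstance : Group M) with
            mul_comm := fun x y => Subtype.ext (hab x x.2 y y.2) }
        exact IsSimpleGroup.prime_card
      have hcard : Nat.card M = p ^ 1 := by
        rw [pow_one]
        exact ((Nat.prime_dvd_prime_iff_eq hp.out hprime).1 hd).symm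
      obtain ⟨N, n1, n2, n3⟩ := subnormal_p m1 (IsPGroup.of_card hcard)
      apply m2
      rw [eq_bot_iff, ← h1 N n1 n3]
      exact n2
    · obtain ⟨N, n1, n2, n3⟩ := subnormal_p' m1 hd
      apply m2
      rw [eq_bot_iff, ← h2 N n1 n3]
      exact n2
  · have hM : M ∈ Components G := ⟨m1, m4, hab⟩
    exact hab fun x hx y hy => (hmem y).1 (m3 hy) M hM x hx

theorem comp_family {G : Type u} [Group G] [Finite G] {p : ℕ} [hp : Fact p.Prime]
    (h1 : OpTrivial p G) (h2 : ∀ N : Subgroup G, N.Normal → ¬ p ∣ Nat.card N → N = ⊥) :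
    Family p (Components G) where
  conj := fun _ hL g => comp_conj hL g
  comm := fun _ hL _ hM h => comp_comm' hL hM h
  centre := fun _ hL => comp_inf_centralizer hL
  dvd := by
    intro L hL
    by_contra h
    obtain ⟨N, n1, n2, n3⟩ := subnormal_p' hL.1 h
    apply comp_ne_bot hL
    rw [eq_bot_iff, ← h2 N n1 n3]
    exact n2
  faithful := by
    intro g _ hg
    have h3 : g ∈ (⨅ L ∈ Components G, centralizer (L : Set G) : Subgroup G) := by
      simp only [mem_iInf, mem_centralizer_iff, SetLike.mem_coe]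
      intro L hL x hx
      exact (hg L hL x hx).symm
    rw [comp_centralizer h1 h2] at h3
    exact mem_bot.1 h3

end Vale.Agent.P240.K
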