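import Vale.Agent.P240.WB.FamDefs
import Mathlib.GroupTheory.IsSubnormal

namespace Vale.Agent.P240.K

open Subgroup

/-- The subnormal nonabelian simple subgroups of `G`. If `O_p(G) = O_{p'}(G) = 1`, these are the
components of `G`. -/
def Components (G : Type*) [Group G] : Set (Subgroup G) :=
  {L | L.IsSubnormal ∧ IsSimpleGroup L ∧ ¬ ∀ x ∈ L, ∀ y ∈ L, x * y = y * x}

end Vale.Agent.P240.K
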