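import Vale.Agent.P240.W.Defs
import Vale.Agent.P240.W.PDefs

/-!
P240-W9. The sign of the Euler characteristic of a solvable-by-Cohen-Macaulay group is `(-1)` to the
`p`-rank.

`cm_sign_aux`: this is exactly what the proof of `cm_ne_zero` (in `Vale/Agent/P240/K/CM.lean`, and in
`Bdl/B6.lean` or one of the other `Bdl` files) shows (its local fact `hkey`), where `m` is the number of
the definition `CohenMacaulay`; copy that proof. In addition:
(a) every `E ∈ ApB p G` has `Nat.card E = p ^ j` with `j ≤ m`: `E` is mapped injectively to `G ⧸ W` (it meets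
the `p'`-group `W` trivially) and its image lies in `ApB p (G ⧸ W)`, now use the definition;
(b) there is `E ∈ ApB p G` with `Nat.card E = p ^ m`: take `F ∈ ApB p (G ⧸ W)` of largest order `p ^ k`;
if `k < m`, then `LowAcyclic {A : Ap p S // F < A.1} (m - k)` at degree `n = 0` applied to the chain
`Finsupp.single [] 1` (a cycle: `bd` of it is `0`) gives a chain `b` of length-one lists in the EMPTY type
with `bd b = single [] 1`, impossible (`b = 0`). So `k = m`. Lift `F` to `G`: in the subgroup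
`F.comap (mk' W)` the normal subgroup `W` has order prime to the order of the quotient `F`, so it has a
complement (Schur-Zassenhaus, `Subgroup.exists_right_complement'_of_coprime`), isomorphic to `F`,
so in `ApB p G`. (Or use the subgroup `P` built in `eu_comap_pos`, whose image is `F`.)

`cm_sign`: by (a), (b) the `p`-rank `k` is `m`; `euler_Ap : euler p H = eu (ApS p H)`.
-/

namespace Vale.Agent.P240.K

open Finsupp Subgroup

universe u

section
variable {G : Type u} [Group G] {p : ℕ}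

lemma cs_pow_card [hp : Fact p.Prime] [Finite G] {W : Subgroup G} (hpW : ¬ p ∣ Nat.card W)
    {x : G} (hx : x ^ p = 1) (hxW : x ∈ W) : x = 1 := by
  have hcop : Nat.Coprime (Nat.card W) p :=
    ((Nat.Prime.coprime_iff_not_dvd hp.out).2 hpW).symm
  rw [← orderOf_eq_one_iff]
  have h1 : orderOf x ∣ p := orderOf_dvd_of_pow_eq_one hx
  have h2 : orderOf x ∣ Nat.card W := by
    have := orderOf_dvd_natCard (⟨x, hxW⟩ : W)
    rwa [← orderOf_coe] at this
  exact Nat.eq_one_of_dvd_coprimes hcop h2 h1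

lemma cs_apB {E : Subgroup G} : E ∈ ApB p G ↔
    (∀ x ∈ E, ∀ y ∈ E, x * y = y * x) ∧ ∀ x ∈ E, x ^ p = 1 := by
  constructor
  · rintro (h | h)
    · subst h
      refine ⟨fun x hx y hy => ?_, fun x hx => ?_⟩
      · rw [mem_bot] at hx hy
        rw [hx, hy]
      · rw [mem_bot] at hx
        rw [hx, one_pow]
    · exact h.2
  · intro h
    by_cases hE : E = ⊥
    · exact Or.inl hE
    · exact Or.inr ⟨hE, h⟩

/-- the orders in `G` are orders in the quotient -/
lemma cs_le [hp : Fact p.Prime] [Finite G] {W : Subgroup G} [hW : W.Normal]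
    (hpW : ¬ p ∣ Nat.card W) {m : ℕ}
    (hm : ∀ F ∈ ApB p (G ⧸ W), ∃ j ≤ m, Nat.card F = p ^ j) :
    ∀ E ∈ ApB p G, ∃ j ≤ m, Nat.card E = p ^ j := by
  intro E hE
  rw [cs_apB] at hE
  set f := QuotientGroup.mk' W with hf
  have hf1 : ∀ x : G, f x = 1 ↔ x ∈ W := fun x => by
    change ((x : G ⧸ W) = 1) ↔ _
    rw [QuotientGroup.eq_one_iff]
  have hinj : Function.Injective (f.comp E.subtype) := by
    rw [injective_iff_map_eq_one]
    intro x hx
    exact Subtype.ext (cs_pow_card hpW (hE.2 _ x.2) ((hf1 _).1 hx))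
  have hcard : Nat.card (E.map f) = Nat.card E := by
    have h1 : (f.comp E.subtype).range = E.map f := by
      rw [MonoidHom.range_comp, Subgroup.range_subtype]
    rw [← h1]
    exact (Nat.card_congr (MonoidHom.ofInjective hinj).toEquiv).symm
  rw [← hcard]
  refine hm _ (cs_apB.2 ⟨?_, ?_⟩)
  · rintro _ ⟨x, hx, rfl⟩ _ ⟨y, hy, rfl⟩
    rw [← map_mul, ← map_mul, hE.1 x hx y hy]
  · rintro _ ⟨x, hx, rfl⟩
    rw [← map_pow, hE.2 x hx, map_one]

/-- lifting an elementary abelian subgroup of the quotient -/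
lemma cs_lift [hp : Fact p.Prime] [Finite G] {W : Subgroup G} [hW : W.Normal]
    (hpW : ¬ p ∣ Nat.card W) {F : Subgroup (G ⧸ W)} (hF : F ∈ ApB p (G ⧸ W)) {m : ℕ}
    (hc : Nat.card F = p ^ m) : ∃ E ∈ ApB p G, Nat.card E = p ^ m := by
  rw [cs_apB] at hF
  set f := QuotientGroup.mk' W with hf
  have hf1 : ∀ x : G, f x = 1 ↔ x ∈ W := fun x => by
    change ((x : G ⧸ W) = 1) ↔ _
    rw [QuotientGroup.eq_one_iff]
  set D : Subgroup G := F.comap f with hD
  set g : D →* F := f.subgroupComap F with hg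
  have hgs : Function.Surjective g := by
    intro v
    obtain ⟨x, hx⟩ := QuotientGroup.mk'_surjective W v.1
    exact ⟨⟨x, by rw [hD, mem_comap, hf, hx]; exact v.2⟩, Subtype.ext hx⟩
  have hker : ∀ x : D, x ∈ g.ker ↔ (x : G) ∈ W := by
    intro x
    rw [MonoidHom.mem_ker, ← hf1]
    constructor
    · intro h
      exact congrArg Subtype.val h
    · intro h
      exact Subtype.ext h
  have hkc : Nat.card g.ker ∣ Nat.card W := by
    have hmap : g.ker.map D.subtype ≤ W := by
      rintro _ ⟨x, hx, rfl⟩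
      exact (hker x).1 hx
    have h1 : Nat.card (g.ker.map D.subtype) = Nat.card g.ker :=
      Nat.card_congr (g.ker.equivMapOfInjective D.subtype D.subtype_injective).toEquiv.symm
    rw [← h1]
    exact Subgroup.card_dvd_of_le hmap
  have hidx : g.ker.index = p ^ m := by
    rw [Subgroup.index_ker, ← hc]
    have : g.range = ⊤ := MonoidHom.range_eq_top.2 hgs
    rw [this]
    exact Nat.card_congr Subgroup.topEquiv.toEquiv
  have hcop : Nat.Coprime (Nat.card g.ker) g.ker.index := by
    rw [hidx]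
    refine Nat.Coprime.pow_right _ ?_
    exact Nat.Coprime.coprime_dvd_left hkc ((Nat.Prime.coprime_iff_not_dvd hp.out).2 hpW).symm
  obtain ⟨H, hH⟩ := Subgroup.exists_right_complement'_of_coprime hcop
  have hdis : ∀ x : D, x ∈ H → (x : G) ∈ W → x = 1 := by
    intro x hx hxW
    have := hH.disjoint
    rw [Subgroup.disjoint_def] at this
    exact this ((hker x).2 hxW) hx
  refine ⟨H.map D.subtype, cs_apB.2 ⟨?_, ?_⟩, ?_⟩
  · rintro _ ⟨x, hx, rfl⟩ _ ⟨y, hy, rfl⟩
    have h1 : x * y * (y * x)⁻¹ = 1 := by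
      refine hdis _ (H.mul_mem (H.mul_mem hx hy) (H.inv_mem (H.mul_mem hy hx))) ?_
      rw [← hf1]
      push_cast
      rw [map_mul, map_inv, map_mul, map_mul, hF.1 _ x.2 _ y.2, mul_inv_cancel]
    have h2 : x * y = y * x := mul_inv_eq_one.1 h1
    change (x : G) * y = y * x
    exact congrArg Subtype.val h2
  · rintro _ ⟨x, hx, rfl⟩
    have h1 : x ^ p = 1 := by
      refine hdis _ (H.pow_mem hx p) ?_
      rw [← hf1]
      push_cast
      rw [map_pow]
      exact hF.2 _ x.2
    change (x : G) ^ p = 1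
    exact congrArg Subtype.val h1
  · have h1 : Nat.card (H.map D.subtype) = Nat.card H :=
      Nat.card_congr (H.equivMapOfInjective D.subtype D.subtype_injective).toEquiv.symm
    rw [h1, ← hidx]
    have h2 := hH.card_mul_card
    have h3 := g.ker.card_mul_index
    have h4 : 0 < Nat.card g.ker := Nat.card_pos
    exact Nat.eq_of_mul_eq_mul_left h4 (h2.trans h3.symm)

/-- the dimension of a Cohen–Macaulay poset is attained -/
lemma cs_top [Finite G] {m : ℕ}
    (hm : ∀ E : Subgroup G, (E = ⊥ ∨ ElemAb p E) → ∃ k ≤ m, Nat.card E = p ^ k ∧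
      LowAcyclic {A : Ap p G // E < A.1} (m - k)) :
    ∃ F ∈ ApB p G, Nat.card F = p ^ m := by
  obtain ⟨F, hF, hmax⟩ := Set.exists_max_image (ApB p G) (fun F => Nat.card F)
    (Set.toFinite _) ⟨⊥, Or.inl rfl⟩
  obtain ⟨k, hkm, hk, hlow⟩ := hm F hF
  refine ⟨F, hF, ?_⟩
  rcases hkm.eq_or_lt with h | h
  · rw [← h]; exact hk
  · exfalso
    have hemp : ∀ A : {A : Ap p G // F < A.1}, False := by
      intro A
      have h1 := hmax A.1.1 (Or.inr A.1.2)
      exact A.2.ne (Subgroup.eq_of_le_of_card_ge A.2.le h1)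
    obtain ⟨b, hb, hbd⟩ := hlow 0 (by omega) (Finsupp.single [] 1) (by
      intro l hl
      have := Finsupp.support_single_subset hl
      rw [Finset.mem_singleton] at this
      subst this
      exact ⟨rfl, List.Pairwise.nil⟩) (by
      unfold bd
      rw [Finsupp.linearCombination_single]
      simp)
    have hb0 : b = 0 := by
      rw [← Finsupp.support_eq_empty]
      rw [Finset.eq_empty_iff_forall_notMem]
      intro l hl
      have h1 := (hb l hl).1
      rcases l with _ | ⟨a, l⟩
      · simp at h1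
      · exact hemp a
    rw [hb0, map_zero] at hbd
    have := DFunLike.congr_fun hbd []
    rw [Finsupp.single_eq_same] at this
    exact zero_ne_one this

lemma cm_sign_aux [hp : Fact p.Prime] [Finite G] {W : Subgroup G} [hW : W.Normal]
    (hsol : Group.IsSolvable W) (hpW : ¬ p ∣ Nat.card W)
    (hfaith : ∀ x : G, x ^ p = 1 → (∀ w ∈ W, x * w = w * x) → x = 1)
    (hCM : CohenMacaulay p (G ⧸ W)) :
    ∃ m : ℕ, (∀ E ∈ ApB p G, ∃ j ≤ m, Nat.card E = p ^ j) ∧
      (∃ E ∈ ApB p G, Nat.card E = p ^ m) ∧ 0 < (-1 : ℤ) ^ m * eu (ApS p G) := by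
  classical
  obtain ⟨m, hm⟩ := hCM
  refine ⟨m, cs_le hpW fun F hF => ?_, ?_, ?_⟩
  · obtain ⟨j, hj, hc, _⟩ := hm F hF
    exact ⟨j, hj, hc⟩
  · obtain ⟨F, hF, hc⟩ := cs_top hm
    exact cs_lift hpW hF hc
  · rw [eu_cover (QuotientGroup.mk' W), Finset.mul_sum]
    have hterm : ∀ F ∈ (Set.toFinite (ApB p (G ⧸ W))).toFinset,
        0 ≤ (-1 : ℤ) ^ m * (eu (Ain p (F.comap (QuotientGroup.mk' W))) * kp p F) ∧
        (kp p F ≠ 0 →
          0 < (-1 : ℤ) ^ m * (eu (Ain p (F.comap (QuotientGroup.mk' W))) * kp p F)) := by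
      intro F hF
      rw [Set.Finite.mem_toFinset] at hF
      obtain ⟨k, hkm, hk, hlow⟩ := hm F hF
      have h1 := eu_comap_pos hsol hpW hfaith hF hk
      have h2 : 0 ≤ (-1 : ℤ) ^ (m - k) * kp p F := by
        refine eu_sign (Set.toFinite _) (m - k) (low_image hlow
          (f := fun A => A.1.1) (fun A B h => Subtype.ext (Subtype.ext h)) (fun A B => Iff.rfl) ?_)
          (chain_length hk fun E hE => ?_)
        · ext A
          constructor
          · rintro ⟨B, _, rfl⟩
            exact ⟨B.1.2, B.2⟩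
          · rintro ⟨h1, h2⟩
            exact ⟨⟨⟨A, h1⟩, h2⟩, trivial, rfl⟩
        · obtain ⟨j, hj, hc, _⟩ := hm E (Or.inr hE)
          exact ⟨j, hj, hc⟩
      have h3 : (-1 : ℤ) ^ m = (-1) ^ k * (-1) ^ (m - k) := by
        rw [← pow_add]
        congr 1
        omega
      have h4 : (-1 : ℤ) ^ m * (eu (Ain p (F.comap (QuotientGroup.mk' W))) * kp p F) =
          ((-1 : ℤ) ^ k * eu (Ain p (F.comap (QuotientGroup.mk' W)))) *
            ((-1) ^ (m - k) * kp p F) := by
        rw [h3]; ring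
      rw [h4]
      refine ⟨mul_nonneg h1.le h2, fun hne => mul_pos h1 (lt_of_le_of_ne h2 ?_)⟩
      intro h0
      rcases mul_eq_zero.1 h0.symm with h | h
      · exact absurd h (pow_ne_zero _ (by norm_num))
      · exact hne h
    refine Finset.sum_pos' (fun F hF => (hterm F hF).1) ?_
    have h5 := sum_kp (p := p) (G := G ⧸ W) (F' := ⊥) (Or.inl rfl)
    obtain ⟨F, hF, hne⟩ := Finset.exists_ne_zero_of_sum_ne_zero
      (s := (Set.toFinite {F | F ∈ ApB p (G ⧸ W) ∧ ⊥ ≤ F}).toFinset) (f := kp p)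
      (by rw [h5]; exact one_ne_zero)
    rw [Set.Finite.mem_toFinset] at hF
    have hF' : F ∈ (Set.toFinite (ApB p (G ⧸ W))).toFinset := by
      rw [Set.Finite.mem_toFinset]
      exact hF.1
    exact ⟨F, hF', (hterm F hF').2 hne⟩

theorem cm_sign [hp : Fact p.Prime] [Finite G] (h : SolvableByCM p G) {k : ℕ}
    (hk : RankIs p G k) : 0 < (-1 : ℤ) ^ k * euler p G := by
  obtain ⟨W, hsol, hpW, hfaith, hN, hCM⟩ := h
  obtain ⟨m, h1, ⟨E, hE, hEm⟩, h3⟩ := cm_sign_aux hsol hpW hfaith hCM
  obtain ⟨⟨E', hE', hEk⟩, hle⟩ := hk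
  have ha : k ≤ m := by
    obtain ⟨j, hj, hc⟩ := h1 E' hE'
    have : p ^ k = p ^ j := by rw [← hEk, hc]
    exact (Nat.pow_right_injective hp.out.two_le this).le.trans hj
  have hb : m ≤ k := by
    have : p ^ m ≤ p ^ k := by
      rw [← hEm]
      rcases hE with hE | hE
      · rw [hE, Subgroup.card_bot]
        exact Nat.one_le_pow _ _ hp.out.pos
      · exact hle E hE
    exact (Nat.pow_le_pow_iff_right hp.out.one_lt).1 this
  rw [euler_Ap, le_antisymm ha hb]
  exact h3

end

end Vale.Agent.P240.K
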