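import Vale.Agent.P240.W.Main

namespace Vale.Agent.P240.K

open Finsupp Subgroup

universe u v

variable {𝕜 : Type v} [Field 𝕜]

section
variable {G : Type u} [Group G] {p : ℕ}

lemma Cent0_eq (F D : Set (Subgroup G)) (z : G) :
    Cent0 F D z = Rz (Rest F D) D ⊓ centralizer {z} := by
  rw [Cent0, Cent, Rz, inf_right_comm]

/-- coreflection to the centralizer of the good element -/
lemma GoodElement.lam_eq [hp : Fact p.Prime] [Finite G] {F : Set (Subgroup G)}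
    (hF : Family p F) {D : Set (Subgroup G)} {z : G} (hz : GoodElement p F D z) :
    lam p (Rz (Rest F D) D) z = euler p (Cent0 F D z) := by
  rw [euler_Ap, ← eu_sub, Cent0_eq, lam]
  refine eu_coreflect (fun E => E ⊓ centralizer {z}) _ _ _ (Set.toFinite _) rfl ?_ ?_ ?_ ?_
  · rintro E ⟨hE1, hE2⟩
    exact ⟨⟨hE1, hE2.trans inf_le_left⟩, mem_of_comm fun y hy =>
      (mem_centralizer_iff.1 (Subgroup.mem_inf.1 (hE2 hy)).2) z rfl⟩
  · rintro E ⟨⟨hE1, hE2⟩, hE3⟩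
    exact ⟨hz.fixed hF ⟨hE1, hE2.trans inf_le_left⟩ hE3,
      le_inf (inf_le_left.trans hE2) inf_le_right⟩
  · intro E _
    exact inf_le_left
  · rintro E _ Y ⟨hY1, hY2⟩ hYE
    exact le_inf hYE (hY2.trans inf_le_right)

/-- the general criterion -/
theorem final5 [hp : Fact p.Prime] [Finite G] (F D : Set (Subgroup G)) (S : Set G) (r : ℕ)
    (hF : Family p F)
    (hS : ∀ L ∈ D, ∀ h ∈ Rest F D, h ^ p = 1 → h ∉ normalizer (L : Set G) → ∀ s ∈ S, s ∈ L →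
      h * s * h⁻¹ ∈ S)
    (hgood : ∀ z ∈ Sel D S, GoodElement p F D z) (hrp : r ≠ p)
    (hno : ¬ (r : ℤ) ∣ ∑ᶠ z ∈ Sel D S, euler p (Cent0 F D z))
    (hT : ∀ L ∈ F, L ∈ D ∨ Removable 𝕜 p L ∨ (r.Prime ∧ FreeSub p r L)) : HQ 𝕜 p G := by
  by_cases hne : (Sel D S).Nonempty
  swap
  · rw [Set.not_nonempty_iff_eq_empty.1 hne] at hno
    exact absurd (by simp) hno
  obtain ⟨z, hz⟩ := hne
  refine prod_main hF (hgood z hz).sub (hgood z hz).conj hS hrp ?_ hT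
  rw [finsum_mem_eq_finite_toFinset_sum _ (Set.toFinite (Sel D S))] at hno
  rwa [Finset.sum_congr rfl fun g hg =>
    (hgood g ((Set.Finite.mem_toFinset _).1 hg)).lam_eq hF]

lemma exists_rank_sign [hp : Fact p.Prime] [Finite G] (h : SolvableByCM p G) :
    ∃ k : ℕ, RankIs p G k ∧ 0 < (-1 : ℤ) ^ k * euler p G := by
  obtain ⟨W, hsol, hpW, hfaith, hW, hCM⟩ := h
  obtain ⟨m, h1, ⟨E, hE, hcard⟩, h3⟩ := cm_sign_aux hsol hpW hfaith hCM
  refine ⟨m, ⟨⟨E, hE, hcard⟩, fun E hE => ?_⟩, by rw [euler_Ap]; exact h3⟩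
  obtain ⟨j, hj, hc⟩ := h1 E (Or.inr hE)
  rw [hc]
  exact Nat.pow_le_pow_right hp.out.pos hj

/-- the criterion with Cohen–Macaulay centralizers -/
theorem final6 [hp : Fact p.Prime] [Finite G] (F D : Set (Subgroup G)) (S : Set G)
    (hF : Family p F)
    (hS : ∀ L ∈ D, ∀ h ∈ Rest F D, h ^ p = 1 → h ∉ normalizer (L : Set G) → ∀ s ∈ S, s ∈ L →
      h * s * h⁻¹ ∈ S)
    (hne : (Sel D S).Nonempty)
    (hgood : ∀ z ∈ Sel D S, GoodElement p F D z ∧ SolvableByCM p (Cent0 F D z))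
    (hpar : ∀ y ∈ Sel D S, ∀ z ∈ Sel D S, ∀ j k : ℕ, RankIs p (Cent0 F D y) j →
      RankIs p (Cent0 F D z) k → (Even j ↔ Even k))
    (hT : ∀ L ∈ F, L ∈ D ∨ Removable 𝕜 p L) : HQ 𝕜 p G := by
  obtain ⟨y, hy⟩ := hne
  obtain ⟨j, hj, hjs⟩ := exists_rank_sign (hgood y hy).2
  have hpos : ∀ z ∈ Sel D S, 0 < (-1 : ℤ) ^ j * euler p (Cent0 F D z) := by
    intro z hz
    obtain ⟨k, hk, hks⟩ := exists_rank_sign (hgood z hz).2
    have h1 := hpar y hy z hz j k hj hk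
    have h2 : (-1 : ℤ) ^ j = (-1) ^ k := by
      by_cases h : Even j
      · rw [h.neg_one_pow, (h1.1 h).neg_one_pow]
      · rw [(Nat.not_even_iff_odd.1 h).neg_one_pow,
          (Nat.not_even_iff_odd.1 fun h' => h (h1.2 h')).neg_one_pow]
    rw [h2]
    exact hks
  refine final5 (𝕜 := 𝕜) F D S 0 hF hS (fun z hz => (hgood z hz).1) hp.out.ne_zero.symm ?_ ?_
  · rw [Nat.cast_zero, zero_dvd_iff, finsum_mem_eq_finite_toFinset_sum _
      (Set.toFinite (Sel D S))]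
    intro h0
    have h1 : 0 < ∑ z ∈ (Set.toFinite (Sel D S)).toFinset,
        (-1 : ℤ) ^ j * euler p (Cent0 F D z) :=
      Finset.sum_pos (fun z hz => hpos z ((Set.Finite.mem_toFinset _).1 hz))
        ⟨y, (Set.Finite.mem_toFinset _).2 hy⟩
    rw [← Finset.mul_sum, h0, mul_zero] at h1
    exact lt_irrefl _ h1
  · intro L hL
    rcases hT L hL with h | h
    · exact Or.inl h
    · exact Or.inr (Or.inl h)

end

end Vale.Agent.P240.K
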