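import Mathlib
import Vale.Agent.P240.W.Final

namespace Vale.Agent.P240.K

open Finsupp Subgroup

universe u v w

variable {𝕜 : Type v} [Field 𝕜]

section
variable {G : Type u} [Group G] {p : ℕ}

/-- Minus the reduced Euler characteristic of the order complex of the finite poset of elementary
abelian `p`-subgroups of `S` normalized by `z`. -/
noncomputable def eulerFix (p : ℕ) (S : Subgroup G) (z : G) : ℤ :=
  ∑ᶠ n : ℕ, (-1) ^ n * (Nat.card
    {l : List {E : Subgroup G // ElemAb p E ∧ E ≤ S ∧ z ∈ normalizer (E : Set G)} //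
      l.length = n ∧ l.Pairwise (· < ·)} : ℤ)

lemma eulerFix_eq [Finite G] (S : Subgroup G) (z : G) : eulerFix p S z = lam p S z := by
  change eulerT {E : Subgroup G // ElemAb p E ∧ E ≤ S ∧ z ∈ normalizer (E : Set G)} = _
  refine euler_eq (f := fun A => A.1) (fun A B h => Subtype.ext h) (fun A B => Iff.rfl)
    (Set.toFinite _) ?_
  ext A
  constructor
  · rintro ⟨B, _, rfl⟩
    exact ⟨⟨B.2.1, B.2.2.1⟩, B.2.2.2⟩
  · intro h
    exact ⟨⟨A, h.1.1, h.1.2, h.2⟩, trivial, rfl⟩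

/-- permutations do not contribute -/
theorem Fam.trick_gen [hp : Fact p.Prime] [Finite G] {R : Subgroup G} {D : Set (Subgroup G)}
    (hD : Fam p R D) {K : Type w} [CommRing K] (θ : G → K)
    (hθ : ∀ E : Subgroup G, ElemAb p E → E ≤ R → (∃ L ∈ D, ¬ E ≤ normalizer (L : Set G)) →
      ∃ O ⊆ D, O.Nonempty ∧ (∀ e ∈ E, ∀ L ∈ O, L.map (MulAut.conj e).toMonoidHom ∈ O) ∧
        ∀ x ∈ ⨆ L ∈ O, L, ∀ y ∈ ⨆ L ∈ D \ O, L, x ∈ centralizer (E : Set G) →
          y ∈ centralizer (E : Set G) → θ (x * y) = θ y) :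
    ∑ g ∈ (Set.toFinite (Gn D : Set G)).toFinset, θ g * (lam p R g : K) =
      ∑ g ∈ (Set.toFinite (Gn D : Set G)).toFinset, θ g * (lam p (Rz R D) g : K) := by
  rw [sum_attach hD.gn_le hD.gn_normal,
    sum_attach hD.gn_le_Rz (fun h hh => hD.gn_normal h (mem_Rz.1 hh).1)]
  symm
  refine Finset.sum_subset ?_ ?_
  · intro F hF
    rw [Set.Finite.mem_toFinset] at hF ⊢
    exact ⟨hF.1, hF.2.1.trans inf_le_left, hF.2.2⟩
  · intro F hF hF'
    rw [Set.Finite.mem_toFinset] at hF hF'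
    have hmove : ∃ L ∈ D, ¬ F ≤ normalizer (L : Set G) := by
      by_contra h
      push Not at h
      exact hF' ⟨hF.1, fun x hx => mem_Rz.2 ⟨hF.2.1 hx, fun L hL => h L hL hx⟩, hF.2.2⟩
    have hFS : F ∈ ApS p G := by
      rcases hF.1 with h | h
      · obtain ⟨L, _, hL⟩ := hmove
        exact absurd (by rw [h]; exact bot_le) hL
      · exact h
    obtain ⟨O, hO, hne, hst, hx⟩ := hθ F hFS hF.2.1 hmove
    rw [hD.sum_zero hO hne (isPGroup_of_ApS hFS) hF.2.1 hst θ ?_, mul_zero]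
    intro x hx' y hy'
    exact hx x (Subgroup.mem_inf.1 hx').1 y (Subgroup.mem_inf.1 hy').1 (Subgroup.mem_inf.1 hx').2
      (Subgroup.mem_inf.1 hy').2

/-- **The general criterion.** -/
theorem final7 [hp : Fact p.Prime] [Finite G] (F D : Set (Subgroup G)) (r : ℕ)
    (K : Type w) [CommRing K] (θ : G → K) (hF : Family p F) (hDF : D ⊆ F)
    (hconj : ∀ L ∈ D, ∀ g : G, L.map (MulAut.conj g).toMonoidHom ∈ D)
    (hrp : r ≠ p) (hr : (r : K) = 0)
    (hθ : ∀ E : Subgroup G, ElemAb p E → E ≤ Rest F D →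
      (∃ L ∈ D, ¬ E ≤ normalizer (L : Set G)) →
      ∃ O ⊆ D, O.Nonempty ∧ (∀ e ∈ E, ∀ L ∈ O, L.map (MulAut.conj e).toMonoidHom ∈ O) ∧
        ∀ x ∈ ⨆ L ∈ O, L, ∀ y ∈ ⨆ L ∈ D \ O, L, x ∈ centralizer (E : Set G) →
          y ∈ centralizer (E : Set G) → θ (x * y) = θ y)
    (hno : ∑ᶠ z ∈ ((⨆ L ∈ D, L : Subgroup G) : Set G),
      θ z * (eulerFix p (Rest F D ⊓ ⨅ L ∈ D, normalizer (L : Set G)) z : K) ≠ 0)
    (hT : ∀ L ∈ F, L ∈ D ∨ Removable 𝕜 p L ∨ (r.Prime ∧ FreeSub p r L)) : HQ 𝕜 p G := by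
  rw [HQ_iff]
  refine remove hF (T := {L | L ∈ F ∧ L ∉ D ∧ Removable 𝕜 p L}) (fun L hL => hL.1)
    (fun L hL => hL.2.2) (NA_of_rat (Set.toFinite _) ?_)
  by_contra hac
  apply hno
  have hT' : ∀ L ∈ F, L ∉ {L | L ∈ F ∧ L ∉ D ∧ Removable 𝕜 p L} → L ∉ D →
      r.Prime ∧ FreeSub p r L := by
    intro L hL hLT hLD
    rcases hT L hL with h | h | h
    · exact absurd h hLD
    · exact absurd ⟨hL, hLD, h⟩ hLT
    · exact h
  have hD := family_Fam hF hDF hconj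
  have h1 := hD.trick_gen θ hθ
  rw [finsum_mem_eq_finite_toFinset_sum _ (Set.toFinite _)]
  have h2 : ∀ z, eulerFix p (Rest F D ⊓ ⨅ L ∈ D, normalizer (L : Set G)) z =
      lam p (Rz (Rest F D) D) z := fun z => eulerFix_eq _ z
  simp only [h2]
  refine h1.symm.trans (Finset.sum_eq_zero fun g hg => ?_)
  rw [Set.Finite.mem_toFinset] at hg
  have h3 : (r : ℤ) ∣ lam p (Rest F D) g :=
    residue_lam hF (fun L hL => hL.1) (fun L hL h => h.2.1 hL) hrp hT' hac (hD.gn_le hg)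
  obtain ⟨c, hc⟩ := h3
  rw [hc, Int.cast_mul, Int.cast_natCast, hr, zero_mul, mul_zero]

end

end Vale.Agent.P240.K
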