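import Vale.Agent.P240.W.LBase

/-!
P240-L1. The product elements are good, and they exist.

`uniform_good`: `sub`, `conj` are hypotheses. `rest`: `z ∈ ⨆ L ∈ D, L ≤ Rest F D` (`(family_Fam ..).gn_le`,
`Gn D` is by definition `⨆ L ∈ D, L`). `norm`: `(family_Fam ..).gn_le_Rz` and `mem_Rz`. `order`: if
`p ∣ orderOf z`, a power `y` of `z` has order `p`; for `L ∈ D` let `s ∈ S ∩ L` with `s⁻¹ * z ∈ C(L)`; `s`
commutes with `s⁻¹ * z`, so for `y = z ^ m` the element `s ^ m` acts on `L` like `y`, and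
`(s ^ m) ^ p` centralizes `L`, lies in `L`, so is `1`; as `p` does not divide the order of `s`,
`s ^ m = 1` and `y` centralizes `L`. So `y` centralizes all `L ∈ D`, and all `L ∈ F \ D` since `y ∈ Rest F D`;
`hF.faithful` gives `y = 1`, a contradiction. `fix`: write `z = s * c`, `c = s⁻¹ * z ∈ C(L)`. For
`e ∈ N(L)`: `z * e * z⁻¹ = (s * e * s⁻¹) * k` with `k ∈ C(L)` (`C(L)` is normalized by `N(L)`,
`conj_centralizer`), so the hypotheses for `z` give those of `Uniform.fix` for `s`.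

`sel_nonempty`: by `Set.Finite.induction_on` for subsets `D'` of `D`: there is `z ∈ ⨆ L ∈ D', L` with an
`L`-component in `S` for all `L ∈ D'`; for `insert L D'` multiply by some `s ∈ S ∩ L` (which commutes
with the members of `D'`, and `z` commutes with `L`).
-/

namespace Vale.Agent.P240.K

open Finsupp Subgroup

section
variable {G : Type*} [Group G] {p : ℕ}

lemma la_conj {L : Subgroup G} {s z e : G} (hs : s ∈ L) (hsz : s⁻¹ * z ∈ centralizer (L : Set G))
    (he : e ∈ normalizer (L : Set G)) :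
    ∃ k ∈ centralizer (L : Set G), z * e * z⁻¹ = s * e * s⁻¹ * k := by
  have h1 : e⁻¹ * (s⁻¹ * z) * e⁻¹⁻¹ ∈ centralizer (L : Set G) := conj_centralizer (inv_mem he) hsz
  have h2 : e⁻¹ * (s⁻¹ * z) * e * (s⁻¹ * z)⁻¹ ∈ centralizer (L : Set G) := by
    rw [inv_inv] at h1
    exact mul_mem h1 (inv_mem hsz)
  refine ⟨e⁻¹ * (s⁻¹ * z) * e * (s⁻¹ * z)⁻¹, h2, ?_⟩
  have h3 := mem_centralizer_iff.1 h2 s⁻¹ (inv_mem hs)
  calc z * e * z⁻¹ = s * e * (e⁻¹ * (s⁻¹ * z) * e * (s⁻¹ * z)⁻¹ * s⁻¹) := by group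
    _ = s * e * (s⁻¹ * (e⁻¹ * (s⁻¹ * z) * e * (s⁻¹ * z)⁻¹)) := by rw [h3]
    _ = s * e * s⁻¹ * (e⁻¹ * (s⁻¹ * z) * e * (s⁻¹ * z)⁻¹) := by group

lemma la_pow [hp : Fact p.Prime] {L : Subgroup G} (hL : L ⊓ centralizer (L : Set G) = ⊥) {s z : G}
    (hs : s ∈ L) (hsz : s⁻¹ * z ∈ centralizer (L : Set G)) (hsp : ¬ p ∣ orderOf s) {m : ℕ}
    (hm : (z ^ m) ^ p = 1) : z ^ m ∈ centralizer (L : Set G) := by
  have h1 : Commute s (s⁻¹ * z) := mem_centralizer_iff.1 hsz s hs
  have h2 : ∀ k : ℕ, z ^ k = s ^ k * (s⁻¹ * z) ^ k := by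
    intro k
    rw [← h1.mul_pow, mul_inv_cancel_left]
  have h3 : s ^ (m * p) = 1 := by
    have h4 := h2 (m * p)
    rw [pow_mul z, hm] at h4
    have h5 : s ^ (m * p) ∈ L ⊓ centralizer (L : Set G) := by
      refine Subgroup.mem_inf.2 ⟨pow_mem hs _, ?_⟩
      rw [eq_inv_of_mul_eq_one_left h4.symm]
      exact inv_mem (pow_mem hsz _)
    rwa [hL, mem_bot] at h5
  have h4 : s ^ m = 1 := by
    rw [← orderOf_dvd_iff_pow_eq_one] at h3 ⊢
    exact Nat.Coprime.dvd_of_dvd_mul_right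
      ((Nat.coprime_comm.1 ((Nat.Prime.coprime_iff_not_dvd hp.out).2 hsp))) h3
  rw [h2 m, h4, one_mul]
  exact pow_mem hsz _

theorem uniform_good [hp : Fact p.Prime] [Finite G] {F D : Set (Subgroup G)} {S : Set G}
    (hF : Family p F) (hDF : D ⊆ F)
    (hconj : ∀ L ∈ D, ∀ g : G, L.map (MulAut.conj g).toMonoidHom ∈ D)
    (hU : ∀ L ∈ D, Uniform p S L) {z : G} (hz : z ∈ Sel D S) : GoodElement p F D z := by
  have hFam := family_Fam hF hDF hconj
  have hzG : z ∈ Gn D := hz.1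
  have hrest : z ∈ Rest F D := hFam.gn_le hzG
  refine ⟨hDF, hconj, hrest, ?_, (mem_Rz.1 (hFam.gn_le_Rz hzG)).2, ?_⟩
  · intro hdvd
    have h1 : orderOf (z ^ (orderOf z / p)) = p :=
      orderOf_pow_orderOf_div (orderOf_pos z).ne' hdvd
    have h2 : (z ^ (orderOf z / p)) ^ p = 1 := by
      conv_lhs => rw [← h1]
      rw [h1]
      exact orderOf_dvd_iff_pow_eq_one.1 h1.dvd
    have h3 : z ^ (orderOf z / p) = 1 := by
      refine hF.faithful _ h2 fun L hL x hx => ?_
      by_cases hLD : L ∈ D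
      · obtain ⟨s, hs, hsL, hsz⟩ := hz.2 L hLD
        have h4 := la_pow (hF.centre L hL) hsL hsz ((hU L hLD).order s hs hsL) h2
        exact (mem_centralizer_iff.1 h4 x hx).symm
      · have h4 : z ^ (orderOf z / p) ∈ Rest F D := pow_mem hrest _
        have h5 := mem_iInf.1 (mem_iInf.1 h4 L) ⟨hL, hLD⟩
        exact (mem_centralizer_iff.1 h5 x hx).symm
    rw [h3, orderOf_one] at h1
    exact hp.out.one_lt.ne h1
  · intro L hL E hE hEN h1 h2
    obtain ⟨s, hs, hsL, hsz⟩ := hz.2 L hL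
    refine (hU L hL).fix s hs hsL E hE (hEN.trans inf_le_right) ?_ ?_
    · intro e he
      obtain ⟨k, hk, hek⟩ := la_conj hsL hsz (hEN he).2
      have h3 := h1 e he
      rw [hek] at h3
      have h4 : s * e * s⁻¹ = s * e * s⁻¹ * k * k⁻¹ := by group
      rw [h4]
      exact mul_mem h3 (mem_sup_right (inv_mem hk))
    · intro e he h3
      obtain ⟨k, hk, hek⟩ := la_conj hsL hsz (hEN he).2
      refine h2 e he ?_
      have h4 : z * e * z⁻¹ * e⁻¹ = (s * e * s⁻¹ * e⁻¹) * (e * k * e⁻¹) := by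
        rw [hek]
        group
      rw [h4]
      exact mul_mem h3 (conj_centralizer (hEN he).2 hk)

theorem sel_nonempty [hp : Fact p.Prime] [Finite G] {F D : Set (Subgroup G)} {S : Set G}
    (hF : Family p F) (hDF : D ⊆ F) (hU : ∀ L ∈ D, Uniform p S L) : (Sel D S).Nonempty := by
  have key : ∀ T : Set (Subgroup G), T.Finite → T ⊆ D → ∃ z ∈ Gn T, ∀ L ∈ T, ∃ s ∈ S, s ∈ L ∧
      s⁻¹ * z ∈ centralizer (L : Set G) := by
    intro T hT
    induction T, hT using Set.Finite.induction_on with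
    | empty =>
      intro _
      exact ⟨1, one_mem _, fun L hL => absurd hL (Set.notMem_empty L)⟩
    | @insert L T hLT hT ih =>
      intro hTD
      have hTD' : T ⊆ D := (Set.subset_insert L T).trans hTD
      have hLD : L ∈ D := hTD (Set.mem_insert L T)
      obtain ⟨z, hz, hzT⟩ := ih hTD'
      obtain ⟨s, hs, hsL⟩ := (hU L hLD).nonempty
      have h1 : Gn T ≤ centralizer (L : Set G) := by
        refine iSup₂_le fun M hM x hx => mem_centralizer_iff.2 fun y hy => ?_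
        exact hF.comm L (hDF hLD) M (hDF (hTD' hM)) (fun h => hLT (h ▸ hM)) y hy x hx
      have h2 : Gn (insert L T) = L ⊔ Gn T := by
        unfold Gn
        exact iSup_insert
      refine ⟨s * z, ?_, ?_⟩
      · rw [h2]
        exact mul_mem (mem_sup_left hsL) (mem_sup_right hz)
      · intro M hM
        rcases Set.mem_insert_iff.1 hM with rfl | hMT
        · refine ⟨s, hs, hsL, ?_⟩
          rw [inv_mul_cancel_left]
          exact h1 hz
        · obtain ⟨t, ht, htM, htz⟩ := hzT M hMT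
          have hne : L ≠ M := fun h => hLT (h ▸ hMT)
          have hc : ∀ y ∈ M, y * s = s * y := fun y hy =>
            (hF.comm L (hDF hLD) M (hDF (hTD' hMT)) hne s hsL y hy).symm
          refine ⟨t, ht, htM, ?_⟩
          have h3 : t⁻¹ * (s * z) = s * (t⁻¹ * z) := by
            rw [← mul_assoc, hc t⁻¹ (inv_mem htM), mul_assoc]
          rw [h3]
          exact mul_mem (mem_centralizer_iff.2 hc) htz
  obtain ⟨z, hz, h⟩ := key D (Set.toFinite D) subset_rfl
  exact ⟨z, hz, h⟩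

end

end Vale.Agent.P240.K
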