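import Vale.Agent.P240.WB.FamDefs

namespace Vale.Agent.P240.K

open Subgroup

section
variable {G : Type*} [Group G]

/-- The elements `s ∈ S ∩ L` (there are such) have order prime to `p`, and:
`fix`: if `s` normalizes the image in `Aut(L)` of an elementary abelian `p`-subgroup `E` of `N_G(L)`
and this image is nontrivial, then `s` centralizes a nontrivial element of it;
`solv`, `prime`: `C_L(s)` is a solvable `p'`-group;
`faithful`: an element `x` of `N_G(L)` with `x ^ p ∈ C_G(L)` that centralizes `s` and `C_L(s)`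
centralizes `L`;
`comm`: two elements of order `1` or `p` of `Aut_G(L)` that fix `s` commute modulo `Inn(L)`;
`indep`: an element of order `p` of `Aut_G(L)` that fixes `s` is conjugate under `L` to one that
fixes `t`, for every `t ∈ S ∩ L`. -/
structure Uniform (p : ℕ) (S : Set G) (L : Subgroup G) : Prop where
  nonempty : ∃ s ∈ S, s ∈ L
  order : ∀ s ∈ S, s ∈ L → ¬ p ∣ orderOf s
  fix : ∀ s ∈ S, s ∈ L → ∀ E : Subgroup G, ElemAb p E → E ≤ normalizer (L : Set G) →
    (∀ e ∈ E, s * e * s⁻¹ ∈ E ⊔ centralizer (L : Set G)) →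
    (∀ e ∈ E, s * e * s⁻¹ * e⁻¹ ∈ centralizer (L : Set G) → e ∈ centralizer (L : Set G)) →
    E ≤ centralizer (L : Set G)
  solv : ∀ s ∈ S, s ∈ L → Group.IsSolvable (L ⊓ centralizer {s} : Subgroup G)
  prime : ∀ s ∈ S, s ∈ L → ¬ p ∣ Nat.card (L ⊓ centralizer {s} : Subgroup G)
  faithful : ∀ s ∈ S, s ∈ L → ∀ x ∈ normalizer (L : Set G), x ^ p ∈ centralizer (L : Set G) →
    x * s = s * x → (∀ y ∈ L, y * s = s * y → x * y = y * x) → x ∈ centralizer (L : Set G)
  comm : ∀ s ∈ S, s ∈ L → ∀ x ∈ normalizer (L : Set G), ∀ y ∈ normalizer (L : Set G),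
    x ^ p ∈ centralizer (L : Set G) → y ^ p ∈ centralizer (L : Set G) → x * s = s * x →
      y * s = s * y → x * y * x⁻¹ * y⁻¹ ∈ L ⊔ centralizer (L : Set G)
  indep : ∀ s ∈ S, s ∈ L → ∀ t ∈ S, t ∈ L → ∀ x ∈ normalizer (L : Set G),
    x ^ p ∈ centralizer (L : Set G) → x * s = s * x → ∃ l ∈ L, l * x * l⁻¹ * t = t * (l * x * l⁻¹)

end

end Vale.Agent.P240.K
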