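import Vale.Agent.P240.W.Final
import Vale.Agent.P240.W.LDefs

namespace Vale.Agent.P240.K

open Finsupp Subgroup

section
variable {G : Type*} [Group G] {p : ℕ}

/-- an element normalizing `L` and commuting with `z` commutes with the `L`-component of `z` -/
lemma comp_comm {L : Subgroup G} (hL : L ⊓ centralizer (L : Set G) = ⊥) {s z x : G} (hs : s ∈ L)
    (hsz : s⁻¹ * z ∈ centralizer (L : Set G)) (hx : x ∈ normalizer (L : Set G))
    (hxz : x * z = z * x) : x * s = s * x := by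
  have h1 : x * s * x⁻¹ ∈ L := (mem_normalizer_iff.1 hx s).1 hs
  have h2 : (x * s * x⁻¹)⁻¹ * z ∈ centralizer (L : Set G) := by
    have h3 := conj_centralizer hx hsz
    have h4 : x * (s⁻¹ * z) * x⁻¹ = (x * s * x⁻¹)⁻¹ * z := by
      calc x * (s⁻¹ * z) * x⁻¹ = x * s⁻¹ * x⁻¹ * (x * z) * x⁻¹ := by group
        _ = x * s⁻¹ * x⁻¹ * (z * x) * x⁻¹ := by rw [hxz]
        _ = (x * s * x⁻¹)⁻¹ * z := by group
    rwa [h4] at h3
  have h3 : s⁻¹ * (x * s * x⁻¹) ∈ L ⊓ centralizer (L : Set G) := by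
    refine Subgroup.mem_inf.2 ⟨mul_mem (inv_mem hs) h1, ?_⟩
    have h4 : s⁻¹ * (x * s * x⁻¹) = (s⁻¹ * z) * ((x * s * x⁻¹)⁻¹ * z)⁻¹ := by group
    rw [h4]
    exact mul_mem hsz (inv_mem h2)
  rw [hL, mem_bot, inv_mul_eq_one] at h3
  calc x * s = (x * s * x⁻¹) * x := by group
    _ = s * x := by rw [← h3]

/-- members of `D` lie in the group generated by `D` and normalize all members -/
lemma mem_Cent0 {F D : Set (Subgroup G)} {z x : G} :
    x ∈ Cent0 F D z ↔ x ∈ Rest F D ∧ x * z = z * x ∧ ∀ L ∈ D, x ∈ normalizer (L : Set G) := by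
  rw [Cent0_eq, Subgroup.mem_inf, mem_Rz, mem_centralizer_iff]
  constructor
  · rintro ⟨⟨h1, h2⟩, h3⟩
    exact ⟨h1, (h3 z rfl).symm, h2⟩
  · rintro ⟨h1, h2, h3⟩
    refine ⟨⟨h1, h3⟩, fun y hy => ?_⟩
    rw [Set.mem_singleton_iff.1 hy]
    exact h2.symm

end

end Vale.Agent.P240.K
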