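import Vale.Agent.P240.W.LBase

/-!
P240-L2. The kernel of the action on the outer automorphism groups.

Let `z ∈ Sel D S`, `X = Kout D ⊓ Cent0 F D z`. Use `mem_Cent0`, `comp_comm` (file LBase), `mem_iInf`.
`lc_normal`: an element of `Cent0 F D z` normalizes `L` and `C(L)` for `L ∈ D`.
`lc_prime`: by Cauchy let `x ∈ X` have order `p`. For `L ∈ D` write `x = l * c`, `l ∈ L`, `c ∈ C(L)`
(`Subgroup.mem_sup`, `L` and `C(L)` commute, or `mem_sup_of_normal_left`-like lemmas); let `s ∈ S ∩ L` be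
the `L`-component of `z`. As `x` commutes with `z`, it commutes with `s` (`comp_comm`), so `l` commutes with
`s`. Then `x ^ p = l ^ p * c ^ p = 1` shows `l ^ p ∈ L ⊓ C(L)`, so `l ^ p = 1`, and `l = 1` by `Uniform.prime`
(`l ∈ L ⊓ centralizer {s}`). So `x = c ∈ C(L)` for all `L ∈ D`; `x ∈ Rest F D`, so `x` centralizes all members
of `F` and `x = 1` by `hF.faithful`, contradiction.
`lc_comm`: `Uniform.comm` for the component `s` (`comp_comm`).
-/

namespace Vale.Agent.P240.K

open Finsupp Subgroup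

section
variable {G : Type*} [Group G] {p : ℕ}

/-- the kernel of the action on the outer automorphism groups of the members of `D` -/
def Kout (D : Set (Subgroup G)) : Subgroup G := ⨅ L ∈ D, (L ⊔ centralizer (L : Set G))

private lemma lc_mem_sup {A B : Subgroup G} (hcomm : ∀ x ∈ A, ∀ y ∈ B, x * y = y * x) {z : G}
    (hz : z ∈ A ⊔ B) : ∃ x ∈ A, ∃ y ∈ B, z = x * y := by
  have hle : A ≤ normalizer (B : Set G) := by
    intro x hx
    rw [mem_normalizer_iff]
    intro y
    constructor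
    · intro hy
      have h1 : x * y * x⁻¹ = y := by rw [hcomm x hx y hy, mul_inv_cancel_right]
      rwa [h1]
    · intro hy
      have h1 := hcomm x⁻¹ (inv_mem hx) _ hy
      have h2 : y = x⁻¹ * (x * y * x⁻¹) * x := by group
      rw [h2, h1, mul_assoc, inv_mul_cancel, mul_one]
      exact hy
  have h1 : z ∈ (A ⊔ B : Subgroup G) := hz
  rw [← SetLike.mem_coe, coe_mul_of_left_le_normalizer_right A B hle] at h1
  obtain ⟨x, hx, y, hy, rfl⟩ := h1
  exact ⟨x, hx, y, hy, rfl⟩

private lemma lc_comm_cent {L : Subgroup G} : ∀ x ∈ L, ∀ y ∈ centralizer (L : Set G),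
    x * y = y * x := fun x hx y hy => mem_centralizer_iff.1 hy x hx

lemma lc_normal {F D : Set (Subgroup G)} (z : G) :
    ∀ x ∈ Cent0 F D z, ∀ w ∈ Kout D, x * w * x⁻¹ ∈ Kout D := by
  intro x hx w hw
  rw [mem_Cent0] at hx
  rw [Kout, mem_iInf] at hw ⊢
  intro L
  rw [mem_iInf]
  intro hL
  have h1 := mem_iInf.1 (hw L) hL
  obtain ⟨l, hl, c, hc, rfl⟩ := lc_mem_sup lc_comm_cent h1
  have h2 : x * (l * c) * x⁻¹ = (x * l * x⁻¹) * (x * c * x⁻¹) := by group
  rw [h2]
  exact mul_mem (mem_sup_left ((mem_normalizer_iff.1 (hx.2.2 L hL) l).1 hl))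
    (mem_sup_right (conj_centralizer (hx.2.2 L hL) hc))

lemma lc_prime [hp : Fact p.Prime] [Finite G] {F D : Set (Subgroup G)} {S : Set G}
    (hF : Family p F) (hDF : D ⊆ F) (hU : ∀ L ∈ D, Uniform p S L) {z : G} (hz : z ∈ Sel D S) :
    ¬ p ∣ Nat.card (Kout D ⊓ Cent0 F D z : Subgroup G) := by
  intro hdvd
  obtain ⟨⟨x, hx⟩, hord⟩ := exists_prime_orderOf_dvd_card' p hdvd
  rw [Subgroup.orderOf_mk] at hord
  obtain ⟨hxK, hxC⟩ := Subgroup.mem_inf.1 hx
  obtain ⟨hxR, hxz, hxN⟩ := mem_Cent0.1 hxC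
  have hxp : x ^ p = 1 := by rw [← hord]; exact pow_orderOf_eq_one x
  have hx1 : x = 1 := by
    refine hF.faithful x hxp fun L hL y hy => ?_
    by_cases hLD : L ∈ D
    · rw [Kout, mem_iInf] at hxK
      have h1 := mem_iInf.1 (hxK L) hLD
      obtain ⟨l, hl, c, hc, hlc⟩ := lc_mem_sup lc_comm_cent h1
      obtain ⟨s, hsS, hsL, hsz⟩ := hz.2 L hLD
      have hxs : x * s = s * x := comp_comm (hF.centre L hL) hsL hsz (hxN L hLD) hxz
      have hcs : s * c = c * s := lc_comm_cent s hsL c hc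
      have hls : l * s = s * l := by
        have h2 : l * s * c = s * l * c := by
          calc l * s * c = l * (s * c) := by rw [mul_assoc]
            _ = l * c * s := by rw [hcs, mul_assoc]
            _ = s * (l * c) := by rw [← hlc, hxs]
            _ = s * l * c := by rw [mul_assoc]
        exact mul_right_cancel h2
      have hlcc : Commute l c := lc_comm_cent l hl c hc
      have hlp : l ^ p = 1 := by
        have h3 : l ^ p * c ^ p = 1 := by rw [← hlcc.mul_pow, ← hlc, hxp]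
        have h4 : l ^ p ∈ L ⊓ centralizer (L : Set G) := by
          refine Subgroup.mem_inf.2 ⟨pow_mem hl p, ?_⟩
          rw [eq_inv_of_mul_eq_one_left h3]
          exact inv_mem (pow_mem hc p)
        rw [hF.centre L hL, mem_bot] at h4
        exact h4
      have hl1 : l = 1 := by
        by_contra hne
        have h5 : orderOf l = p := orderOf_eq_prime hlp hne
        have h6 : l ∈ (L ⊓ centralizer {s} : Subgroup G) := by
          refine Subgroup.mem_inf.2 ⟨hl, mem_centralizer_iff.2 fun t ht => ?_⟩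
          rw [Set.mem_singleton_iff.1 ht]
          exact hls.symm
        refine (hU L hLD).prime s hsS hsL ?_
        rw [← h5, ← Subgroup.orderOf_mk l h6]
        exact orderOf_dvd_natCard _
      rw [hlc, hl1, one_mul]
      exact (lc_comm_cent y hy c hc).symm
    · have h1 := mem_iInf.1 (mem_iInf.1 hxR L) (Set.mem_sdiff_of_mem hL hLD)
      exact (mem_centralizer_iff.1 h1 y hy).symm
  rw [hx1, orderOf_one] at hord
  exact hp.out.one_lt.ne hord

lemma lc_comm [hp : Fact p.Prime] [Finite G] {F D : Set (Subgroup G)} {S : Set G}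
    (hF : Family p F) (hDF : D ⊆ F) (hU : ∀ L ∈ D, Uniform p S L) {z : G} (hz : z ∈ Sel D S)
    {x y : G} (hx : x ∈ Cent0 F D z) (hy : y ∈ Cent0 F D z) (hxp : x ^ p = 1) (hyp : y ^ p = 1) :
    x * y * x⁻¹ * y⁻¹ ∈ Kout D := by
  obtain ⟨-, hxz, hxN⟩ := mem_Cent0.1 hx
  obtain ⟨-, hyz, hyN⟩ := mem_Cent0.1 hy
  rw [Kout, mem_iInf]
  intro L
  rw [mem_iInf]
  intro hL
  obtain ⟨s, hsS, hsL, hsz⟩ := hz.2 L hL
  have hxs : x * s = s * x := comp_comm (hF.centre L (hDF hL)) hsL hsz (hxN L hL) hxz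
  have hys : y * s = s * y := comp_comm (hF.centre L (hDF hL)) hsL hsz (hyN L hL) hyz
  refine (hU L hL).comm s hsS hsL x (hxN L hL) y (hyN L hL) ?_ ?_ hxs hys
  · rw [hxp]; exact one_mem _
  · rw [hyp]; exact one_mem _

end

end Vale.Agent.P240.K
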