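import Vale.Agent.P240.W.LC

/-!
P240-L2b. Solvability of `X = Kout D ⊓ Cent0 F D z`, `z ∈ Sel D S`. Use `mem_Cent0`, `comp_comm` (LBase).

`X ⊓ ⨅ L ∈ D, C(L)` is contained in the solvable group `⨅ L ∈ F, C(L)` (elements of `Cent0 F D z` lie in
`Rest F D = ⨅ L ∈ F \ D, C(L)`). For finite `D' ⊆ D` put `X' = X ⊓ ⨅ L ∈ D', C(L)`. Show by induction on the
number of elements of `D \ D'` that `X'` is solvable (then take `D' = ∅`): if `L ∈ D \ D'`, then
`X' ⊓ C(L)` is solvable by induction; the homomorphism `X' → MulAut L` (`Subgroup.normalizerMonoidHom`)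
has kernel `X' ⊓ C(L)`, and its image is contained in the image of the solvable group
`L ⊓ centralizer {s}`, `s ∈ S ∩ L` the `L`-component of `z`: write `x = l * c ∈ X'`, `l ∈ L`, `c ∈ C(L)`; `x`
commutes with `z`, so with `s` (`comp_comm`), so `l` commutes with `s`; and `x` acts on `L` like `l`. A
group with a solvable normal subgroup and a solvable quotient is solvable
(`solvable_of_ker_le_range` or `solvable_of_surjective`, here `Group.IsSolvable`).
-/

namespace Vale.Agent.P240.K

open Finsupp Subgroup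

section
variable {G : Type*} [Group G] {p : ℕ}

lemma lc969_ext {L A B : Subgroup G} (hAN : A ≤ normalizer (L : Set G)) (hB : B ≤ L)
    (hBs : Group.IsSolvable B) (hk : Group.IsSolvable (A ⊓ centralizer (L : Set G) : Subgroup G))
    (hx : ∀ x ∈ A, ∃ l ∈ B, l⁻¹ * x ∈ centralizer (L : Set G)) : Group.IsSolvable A := by
  let ψ : A →* MulAut L := (L.normalizerMonoidHom).comp (Subgroup.inclusion hAN)
  let β : B →* MulAut L := (MulAut.conj : L →* MulAut L).comp (Subgroup.inclusion hB)
  have hr : ψ.range ≤ β.range := by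
    rintro _ ⟨x, rfl⟩
    obtain ⟨l, hl, hc⟩ := hx x.1 x.2
    refine ⟨⟨l, hl⟩, ?_⟩
    ext y
    show l * (y : G) * l⁻¹ = (x : G) * y * (x : G)⁻¹
    have h1 : (y : G) * (l⁻¹ * (x : G)) = (l⁻¹ * (x : G)) * y :=
      mem_centralizer_iff.1 hc y y.2
    calc l * (y : G) * l⁻¹ = l * ((y : G) * (l⁻¹ * (x : G))) * (x : G)⁻¹ := by group
      _ = l * ((l⁻¹ * (x : G)) * y) * (x : G)⁻¹ := by rw [h1]
      _ = (x : G) * y * (x : G)⁻¹ := by group
  have hβ : Group.IsSolvable β.range := Group.isSolvable_of_surjective β.rangeRestrict_surjective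
  have hψ : Group.IsSolvable ψ.range :=
    Group.isSolvable_of_isSolvable_injective (Subgroup.inclusion_injective hr)
  refine Group.isSolvable_of_ker_le_range
    (Subgroup.inclusion (inf_le_left : A ⊓ centralizer (L : Set G) ≤ A)) ψ.rangeRestrict ?_
  intro x hxk
  rw [MonoidHom.ker_rangeRestrict, MonoidHom.mem_ker] at hxk
  refine ⟨⟨x.1, Subgroup.mem_inf.2 ⟨x.2, mem_centralizer_iff.2 fun y hy => ?_⟩⟩, rfl⟩
  have h2 := congrArg (fun f : MulAut L => ((f ⟨y, hy⟩ : L) : G)) hxk
  have h3 : (x : G) * y * (x : G)⁻¹ = y := h2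
  calc y * (x : G) = ((x : G) * y * (x : G)⁻¹) * x := by rw [h3]
    _ = (x : G) * y := by group

lemma lc_solvable [hp : Fact p.Prime] [Finite G] {F D : Set (Subgroup G)} {S : Set G}
    (hF : Family p F) (hDF : D ⊆ F) (hU : ∀ L ∈ D, Uniform p S L)
    (hsol : Group.IsSolvable (⨅ L ∈ F, centralizer (L : Set G) : Subgroup G)) {z : G}
    (hz : z ∈ Sel D S) : Group.IsSolvable (Kout D ⊓ Cent0 F D z : Subgroup G) := by
  have key : ∀ T : Set (Subgroup G), T ⊆ D → Group.IsSolvable
      ((Kout D ⊓ Cent0 F D z) ⊓ ⨅ L ∈ D \ T, centralizer (L : Set G) : Subgroup G) := by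
    intro T
    refine Set.Finite.induction_on (motive := fun T _ => T ⊆ D → Group.IsSolvable
      ((Kout D ⊓ Cent0 F D z) ⊓ ⨅ L ∈ D \ T, centralizer (L : Set G) : Subgroup G))
      T (Set.toFinite T) ?_ ?_
    · intro _
      have h1 : (Kout D ⊓ Cent0 F D z) ⊓ ⨅ L ∈ D \ (∅ : Set (Subgroup G)), centralizer (L : Set G) ≤
          ⨅ L ∈ F, centralizer (L : Set G) := by
        intro x hx
        obtain ⟨hx1, hx2⟩ := Subgroup.mem_inf.1 hx
        have hx3 := (mem_Cent0.1 (Subgroup.mem_inf.1 hx1).2).1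
        simp only [Rest, Subgroup.mem_iInf] at hx2 hx3 ⊢
        intro L hL
        by_cases hLD : L ∈ D
        · exact hx2 L ⟨hLD, fun h => h⟩
        · exact hx3 L ⟨hL, hLD⟩
      have := hsol
      exact Group.isSolvable_of_isSolvable_injective (Subgroup.inclusion_injective h1)
    · intro L T hLT _ ih hsub
      have hLD : L ∈ D := hsub (Set.mem_insert _ _)
      have ih' := ih fun M hM => hsub (Set.mem_insert_of_mem _ hM)
      obtain ⟨s, hsS, hsL, hsz⟩ := hz.2 L hLD
      refine lc969_ext (L := L) (B := L ⊓ centralizer {s}) ?_ inf_le_left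
        ((hU L hLD).solv s hsS hsL) ?_ ?_
      · intro x hx
        exact (mem_Cent0.1 (Subgroup.mem_inf.1 (Subgroup.mem_inf.1 hx).1).2).2.2 L hLD
      · have h1 : ((Kout D ⊓ Cent0 F D z) ⊓ ⨅ M ∈ D \ (insert L T), centralizer (M : Set G)) ⊓
            centralizer (L : Set G) ≤
            (Kout D ⊓ Cent0 F D z) ⊓ ⨅ M ∈ D \ T, centralizer (M : Set G) := by
          intro x hx
          obtain ⟨hx1, hx2⟩ := Subgroup.mem_inf.1 hx
          obtain ⟨hx3, hx4⟩ := Subgroup.mem_inf.1 hx1
          refine Subgroup.mem_inf.2 ⟨hx3, ?_⟩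
          simp only [Subgroup.mem_iInf] at hx4 ⊢
          intro M hM
          by_cases hML : M = L
          · rw [hML]
            exact hx2
          · refine hx4 M ⟨hM.1, fun h => ?_⟩
            rcases Set.mem_insert_iff.1 h with h | h
            · exact hML h
            · exact hM.2 h
        have := ih'
        exact Group.isSolvable_of_isSolvable_injective (Subgroup.inclusion_injective h1)
      · intro x hx
        obtain ⟨hx1, _⟩ := Subgroup.mem_inf.1 hx
        obtain ⟨hxK, hxC⟩ := Subgroup.mem_inf.1 hx1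
        obtain ⟨_, hxz, hxN⟩ := mem_Cent0.1 hxC
        have hxs := comp_comm (hF.centre L (hDF hLD)) hsL hsz (hxN L hLD) hxz
        have hxL : x ∈ L ⊔ centralizer (L : Set G) := by
          simp only [Kout, Subgroup.mem_iInf] at hxK
          exact hxK L hLD
        obtain ⟨l, hl, c, hc, rfl⟩ := mem_sup_cent hxL
        have hcs : s * c = c * s := mem_centralizer_iff.1 hc s hsL
        refine ⟨l, Subgroup.mem_inf.2 ⟨hl, mem_centralizer_iff.2 fun y hy => ?_⟩, ?_⟩
        · rw [Set.mem_singleton_iff.1 hy]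
          have h5 : s * l * c = l * s * c := by
            calc s * l * c = s * (l * c) := by group
              _ = (l * c) * s := hxs.symm
              _ = l * (c * s) := by group
              _ = l * (s * c) := by rw [hcs]
              _ = l * s * c := by group
          exact mul_right_cancel h5
        · rw [inv_mul_cancel_left]
          exact hc
  have h1 := key D (fun L h => h)
  have h2 : (Kout D ⊓ Cent0 F D z) ≤
      (Kout D ⊓ Cent0 F D z) ⊓ ⨅ L ∈ D \ D, centralizer (L : Set G) := by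
    intro x hx
    refine Subgroup.mem_inf.2 ⟨hx, ?_⟩
    simp only [Subgroup.mem_iInf]
    intro L hL
    exact absurd hL.1 hL.2
  have := h1
  exact Group.isSolvable_of_isSolvable_injective (Subgroup.inclusion_injective h2)

end

end Vale.Agent.P240.K
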