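import Vale.Agent.P240.W.LC

/-!
P240-L2c. `lc_faithful`: let `x ∈ Cent0 F D z`, `x ^ p = 1`, and let `x` commute with all elements of
`X = Kout D ⊓ Cent0 F D z`. Use `mem_Cent0`, `comp_comm` (LBase).

Let `L ∈ D`, `s ∈ S ∩ L` the `L`-component of `z`. Every `y ∈ L` commuting with `s` lies in `X`: `y ∈ L`, and
`y ∈ C(M)` for all `M ∈ F`, `M ≠ L` (`hF.comm`), so `y ∈ Kout D`, `y ∈ Rest F D`, `y` normalizes all members of
`D`; `y` commutes with `s` and with `s⁻¹ * z ∈ C(L)`, hence with `z`. So `x` commutes with all these `y`, with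
`s` by `comp_comm`, and `x ^ p = 1 ∈ C(L)`; `Uniform.faithful` gives `x ∈ C(L)`. As this holds for all
`L ∈ D` and `x ∈ Rest F D`, `hF.faithful` gives `x = 1`.
-/

namespace Vale.Agent.P240.K

open Finsupp Subgroup

section
variable {G : Type*} [Group G] {p : ℕ}

lemma lc_faithful [hp : Fact p.Prime] [Finite G] {F D : Set (Subgroup G)} {S : Set G}
    (hF : Family p F) (hDF : D ⊆ F)
    (hconj : ∀ L ∈ D, ∀ g : G, L.map (MulAut.conj g).toMonoidHom ∈ D)
    (hU : ∀ L ∈ D, Uniform p S L) {z : G} (hz : z ∈ Sel D S) {x : G}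
    (hx : x ∈ Cent0 F D z) (hxp : x ^ p = 1)
    (hc : ∀ w ∈ Kout D ⊓ Cent0 F D z, x * w = w * x) : x = 1 := by
  sorry

end

end Vale.Agent.P240.K
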