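import Vale.Agent.P240.W.LBase

/-!
P240-L3. Groups in which the elements of order `p` commute.
-/

namespace Vale.Agent.P240.K

open Finsupp Subgroup

universe u

/-- A set with a largest element is acyclic. -/
lemma not_NA_of_top {𝕜 : Type*} [Field 𝕜] {α : Type*} [PartialOrder α] {S : Set α} {t : α}
    (ht : t ∈ S) (h : ∀ x ∈ S, x ≤ t) : ¬ NA 𝕜 S := by
  rw [not_NA_iff]
  intro z hz hbz
  have h1 : hc (fun _ => t) t z ∈ Sp 𝕜 (wk S) :=
    hc_mem (T := S) (S := S) (φ := fun _ => t) (F := t) (le_refl _) ht (fun _ _ => ht)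
      (fun _ _ => le_refl _) h (fun _ _ _ _ _ => le_refl _) (Sp_mono (fun l hl => st_wk l hl) hz)
  refine ⟨pi (hc (fun _ => t) t z), pi_mem h1, ?_⟩
  have h2 := bd_hc (fun _ => t) t z
  rw [hbz, map_zero, add_zero] at h2
  rw [bd_pi h1, h2, pi_of_st hz]

/-- A poset with a largest element is acyclic in all degrees. -/
lemma lowAcyclic_of_top {α : Type*} [PartialOrder α] {t : α} (h : ∀ x, x ≤ t) (m : ℕ) :
    LowAcyclic α m := by
  intro n _ c hc hbc
  by_contra hcon
  push Not at hcon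
  exact not_NA_of_top (𝕜 := ℚ) (Set.mem_univ t) (fun x _ => h x)
    (official_iff.1 ⟨n, c, hc, hbc, hcon⟩)

section
variable {C : Type u} [Group C] {p : ℕ}

lemma cm_of_comm [hp : Fact p.Prime] [Finite C]
    (h : ∀ x y : C, x ^ p = 1 → y ^ p = 1 → x * y = y * x) : CohenMacaulay p C := by
  let Ω : Subgroup C :=
    { carrier := {x | x ^ p = 1}
      mul_mem' := fun {a b} ha hb => by
        have hc : Commute a b := h a b ha hb
        rw [Set.mem_ofPred_eq, hc.mul_pow, show a ^ p = 1 from ha, show b ^ p = 1 from hb, one_mul]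
      one_mem' := one_pow p
      inv_mem' := fun {a} ha => by
        rw [Set.mem_ofPred_eq, inv_pow, show a ^ p = 1 from ha, inv_one] }
  have hΩ : ∀ x, x ∈ Ω ↔ x ^ p = 1 := fun x => Iff.rfl
  have hcard : ∀ E : Subgroup C, E ≤ Ω → ∃ k, Nat.card E = p ^ k := by
    intro E hE
    refine IsPGroup.iff_card.1 fun x => ⟨1, ?_⟩
    rw [pow_one]
    exact Subtype.ext ((hΩ _).1 (hE x.2))
  obtain ⟨m, hm⟩ := hcard Ω le_rfl
  refine ⟨m, fun E hE => ?_⟩
  have hEΩ : E ≤ Ω := by
    rcases hE with rfl | hE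
    · exact bot_le
    · exact fun x hx => hE.2.2 x hx
  obtain ⟨k, hk⟩ := hcard E hEΩ
  have hkm : k ≤ m := by
    have hd := Subgroup.card_dvd_of_le hEΩ
    rw [hk, hm] at hd
    exact (Nat.pow_dvd_pow_iff_le_right hp.out.one_lt).1 hd
  refine ⟨k, hkm, hk, ?_⟩
  rcases eq_or_lt_of_le hEΩ with hEq | hlt
  · have : k = m := by
      rw [hEq, hm] at hk
      exact (Nat.pow_right_injective hp.out.two_le hk).symm
    intro n hn
    omega
  · have hne : Ω ≠ ⊥ := fun h0 => not_lt_bot (h0 ▸ hlt)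
    have hab : ∀ x ∈ Ω, ∀ y ∈ Ω, x * y = y * x := fun x hx y hy => h x y hx hy
    exact lowAcyclic_of_top (t := (⟨⟨Ω, hne, hab, fun x hx => hx⟩, hlt⟩ :
      {A : Ap p C // E < A.1})) (fun A x hx => A.1.2.2.2 x hx) _

end

end Vale.Agent.P240.K
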