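import Vale.Agent.P240.W.LD

/-!
P240-L3b. Groups in which the elements of order `p` commute modulo a solvable normal `p'`-subgroup.
-/

namespace Vale.Agent.P240.K

open Finsupp Subgroup

universe u

section
variable {C : Type u} [Group C] {p : ℕ}

theorem scm_of_comm [hp : Fact p.Prime] [Finite C] (W : Subgroup C) (hW : W.Normal)
    (hsol : Group.IsSolvable W) (hpW : ¬ p ∣ Nat.card W)
    (hfaith : ∀ x : C, x ^ p = 1 → (∀ w ∈ W, x * w = w * x) → x = 1)
    (hcomm : ∀ x y : C, x ^ p = 1 → y ^ p = 1 → x * y * x⁻¹ * y⁻¹ ∈ W) : SolvableByCM p C := by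
  have hcop : Nat.Coprime (Nat.card W) p :=
    ((Nat.Prime.coprime_iff_not_dvd hp.out).2 hpW).symm
  have hf1 : ∀ x : C, QuotientGroup.mk' W x = 1 ↔ x ∈ W := fun x => by
    change ((x : C ⧸ W) = 1) ↔ _
    rw [QuotientGroup.eq_one_iff]
  have hlift : ∀ q : C ⧸ W, q ^ p = 1 → ∃ y : C, y ^ p = 1 ∧ QuotientGroup.mk' W y = q := by
    intro q hq
    obtain ⟨x, rfl⟩ := QuotientGroup.mk'_surjective W q
    have hxp : (x ^ p) ^ Nat.card W = 1 := by
      have h1 : x ^ p ∈ W := by rw [← hf1, map_pow, hq]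
      have := pow_card_eq_one' (x := (⟨x ^ p, h1⟩ : W))
      exact congrArg Subtype.val this
    obtain ⟨s, hs⟩ := exists_pow_eq_self_of_coprime (x := QuotientGroup.mk' W x) (n := Nat.card W)
      (hcop.coprime_dvd_right (orderOf_dvd_of_pow_eq_one hq))
    refine ⟨(x ^ Nat.card W) ^ s, ?_, ?_⟩
    · rw [← pow_mul, ← pow_mul]
      have h2 : Nat.card W * (s * p) = p * Nat.card W * s := by ring
      rw [h2, pow_mul, pow_mul, hxp, one_pow]
    · rw [map_pow, map_pow, hs]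
  refine ⟨W, hsol, hpW, hfaith, hW, ?_⟩
  apply cm_of_comm
  intro a b ha hb
  obtain ⟨x, hx, rfl⟩ := hlift a ha
  obtain ⟨y, hy, rfl⟩ := hlift b hb
  have h1 := (hf1 _).2 (hcomm x y hx hy)
  rw [map_mul, map_mul, map_mul, map_inv, map_inv] at h1
  have h2 := mul_inv_eq_one.1 h1
  exact mul_inv_eq_iff_eq_mul.1 h2

end

end Vale.Agent.P240.K
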