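import Vale.Agent.P240.W.LC

/-!
P240-L4. The `p`-rank of `Cent0 F D z` does not depend on `z ∈ Sel D S`.

`rank_transfer`: let `N = ⨆ L ∈ D, L` (`= Gn D`), `z, t ∈ Sel D S`, `E ≤ Cent0 F D z` elementary abelian or
trivial.
(a) For every `x ∈ E` there is `n ∈ N` such that `x` commutes with `n⁻¹ * t * n`: for each `L ∈ D` let
`s_L, t_L` be the `L`-components of `z` and `t` in `S ∩ L`; `x` normalizes `L`, `x ^ p = 1`, `x` commutes with
`s_L` (`comp_comm`), so by `Uniform.indep` there is `l_L ∈ L` such that `x` commutes with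
`l_L⁻¹ * t_L * l_L`. Let `n` be the product of the `l_L` (as in `sel_nonempty`: there is `n ∈ N` with
`l_L⁻¹ * n ∈ C(L)` for all `L ∈ D`). The element `u = n⁻¹ * t * n ∈ N` has the components
`l_L⁻¹ * t_L * l_L`, the element `x * u * x⁻¹ ∈ N` has the components `x * (l_L⁻¹ * t_L * l_L) * x⁻¹`, the
same; an element of `N` centralizing all `L ∈ D` is `1` (`Fam.gn_inf`-like: it is in the centre of `N`; use
`(family_Fam hF hDF hconj).gn_inf`-style induction), so `x * u * x⁻¹ = u`.
(b) Let `Ω` be the set of all `n * t * n⁻¹`, `n ∈ N`. By (a), `E` maps `Ω` to itself by conjugation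
(`N` is normalized by `E`). `H = N ⊔ E` acts transitively on `Ω`. Counting: `N ⊓ E = ⊥` (`N ⊓ Cent0 F D z` is
contained in `Kout D ⊓ Cent0 F D z`, of order prime to `p` by `lc_prime`), so `card H = card N * card E`,
`card Ω = card N / card (N ⊓ centralizer {t})` and
`card (H ⊓ centralizer {t}) = card (N ⊓ centralizer {t}) * card E` with the first factor prime to `p`
(again `lc_prime`). Let `P` be a Sylow `p`-subgroup of `H ⊓ centralizer {t}` (as subgroup of `G`):
`card P = card E`; `P ⊓ N = ⊥`; so `P` embeds in `H / N ≅ E` and `P ∈ ApB p G` (commutators and `p`-th powers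
of elements of `P` lie in `P ⊓ N`, since those of elements of `H = N * E` lie in `N`). Finally
`P ≤ H ⊓ centralizer {t} ≤ Cent0 F D t`.
-/

namespace Vale.Agent.P240.K

open Finsupp Subgroup

section
variable {G : Type*} [Group G] {p : ℕ}

private lemma le_mem_sup {A B : Subgroup G} (hcomm : ∀ x ∈ A, ∀ y ∈ B, x * y = y * x) {z : G}
    (hz : z ∈ A ⊔ B) : ∃ a ∈ A, ∃ b ∈ B, z = a * b := by
  let H : Subgroup G :=
    { carrier := {z | ∃ a ∈ A, ∃ b ∈ B, z = a * b}
      one_mem' := ⟨1, A.one_mem, 1, B.one_mem, (mul_one 1).symm⟩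
      mul_mem' := by
        rintro _ _ ⟨a, ha, b, hb, rfl⟩ ⟨a', ha', b', hb', rfl⟩
        refine ⟨a * a', A.mul_mem ha ha', b * b', B.mul_mem hb hb', ?_⟩
        calc a * b * (a' * b') = a * (b * a') * b' := by group
          _ = a * (a' * b) * b' := by rw [hcomm a' ha' b hb]
          _ = a * a' * (b * b') := by group
      inv_mem' := by
        rintro _ ⟨a, ha, b, hb, rfl⟩
        refine ⟨a⁻¹, A.inv_mem ha, b⁻¹, B.inv_mem hb, ?_⟩
        rw [mul_inv_rev]
        exact (hcomm _ (A.inv_mem ha) _ (B.inv_mem hb)).symm }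
  have h : A ⊔ B ≤ H := sup_le
    (fun a ha => ⟨a, ha, 1, B.one_mem, (mul_one a).symm⟩)
    (fun b hb => ⟨1, A.one_mem, b, hb, (one_mul b).symm⟩)
  exact h hz

/-- an element of `Gn T` centralizing all members of `T` is trivial -/
private lemma le_key {R : Subgroup G} {D : Set (Subgroup G)} (hD : Fam p R D) :
    ∀ T : Set (Subgroup G), T.Finite → T ⊆ D → ∀ x ∈ Gn T,
      (∀ L ∈ T, ∀ l ∈ L, x * l = l * x) → x = 1 := by
  intro T hT
  induction T, hT using Set.Finite.induction_on with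
  | empty =>
    intro _ x hx _
    unfold Gn at hx
    simpa using hx
  | @insert L T hLT hT ih =>
    intro hTD x hx hc
    have hcom : ∀ a ∈ L, ∀ b ∈ Gn T, a * b = b * a := by
      intro a ha b hb
      refine hD.gn_comm (O := {L}) (O' := T) ?_ ?_ ?_ a (le_Gn (Set.mem_singleton L) ha) b hb
      · rw [Set.singleton_subset_iff]
        exact hTD (Set.mem_insert L T)
      · exact (Set.subset_insert L T).trans hTD
      · rw [Set.disjoint_singleton_left]
        exact hLT
    have h1 : Gn (insert L T) = L ⊔ Gn T := by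
      unfold Gn
      exact iSup_insert
    rw [h1] at hx
    obtain ⟨l, hl, y, hy, rfl⟩ := le_mem_sup hcom hx
    have h2 : l = 1 := by
      have h3 : l ∈ L ⊓ centralizer (L : Set G) := by
        refine ⟨hl, Subgroup.mem_centralizer_iff.2 fun z hz => ?_⟩
        have h4 := hc L (Set.mem_insert L T) z hz
        have h5 := hcom z hz y hy
        have h6 : z * l * y = l * z * y := by
          calc z * l * y = z * (l * y) := by group
            _ = l * y * z := h4.symm
            _ = l * (y * z) := by group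
            _ = l * (z * y) := by rw [h5]
            _ = l * z * y := by group
        exact mul_right_cancel h6
      rw [hD.centre L (hTD (Set.mem_insert L T))] at h3
      exact Subgroup.mem_bot.1 h3
    subst h2
    rw [one_mul] at hc ⊢
    exact ih ((Set.subset_insert L T).trans hTD) y hy
      fun M hM l hl => hc M (Set.mem_insert_of_mem L hM) l hl

/-- the product of a choice of elements of the members of `T` -/
private lemma le_prod {R : Subgroup G} {D : Set (Subgroup G)} (hD : Fam p R D)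
    (l : Subgroup G → G) (hl : ∀ L ∈ D, l L ∈ L) :
    ∀ T : Set (Subgroup G), T.Finite → T ⊆ D → ∃ n ∈ Gn T, ∀ L ∈ T,
      (l L)⁻¹ * n ∈ centralizer (L : Set G) := by
  intro T hT
  induction T, hT using Set.Finite.induction_on with
  | empty =>
    intro _
    exact ⟨1, one_mem _, fun L hL => absurd hL (Set.notMem_empty L)⟩
  | @insert L T hLT hT ih =>
    intro hTD
    obtain ⟨n, hn, hn'⟩ := ih ((Set.subset_insert L T).trans hTD)
    have hLD := hTD (Set.mem_insert L T)
    refine ⟨l L * n, mul_mem (le_Gn (Set.mem_insert L T) (hl L hLD)) ?_, ?_⟩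
    · have h1 : Gn T ≤ Gn (insert L T) := by
        unfold Gn
        exact biSup_mono fun M hM => Set.mem_insert_of_mem L hM
      exact h1 hn
    · intro M hM
      rcases Set.mem_insert_iff.1 hM with h | h
      · subst h
        rw [inv_mul_cancel_left, mem_centralizer_iff]
        intro a ha
        refine hD.gn_comm (O := {M}) (O' := T) ?_ ?_ ?_ a (le_Gn (Set.mem_singleton M) ha) n hn
        · rw [Set.singleton_subset_iff]
          exact hLD
        · exact (Set.subset_insert M T).trans hTD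
        · rw [Set.disjoint_singleton_left]
          exact hLT
      · have hne : L ≠ M := fun h' => hLT (h' ▸ h)
        have hMD := hTD hM
        have h1 : l L ∈ centralizer (M : Set G) := by
          rw [mem_centralizer_iff]
          intro a ha
          exact (hD.comm L hLD M hMD hne (l L) (hl L hLD) a ha).symm
        have h2 : (l M)⁻¹ * (l L * n) = l L * ((l M)⁻¹ * n) := by
          have h3 := mem_centralizer_iff.1 h1 (l M)⁻¹ (inv_mem (hl M hMD))
          rw [← mul_assoc, h3, mul_assoc]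
        rw [h2]
        exact mul_mem h1 (hn' M h)

/-- the component computation -/
private lemma le_comp {L : Subgroup G} {l n s t x : G} (hl : l ∈ L)
    (hn : l⁻¹ * n ∈ centralizer (L : Set G)) (hs : s ∈ L) (hst : s⁻¹ * t ∈ centralizer (L : Set G))
    (hx : x ∈ normalizer (L : Set G)) (h : l * x * l⁻¹ * s = s * (l * x * l⁻¹)) :
    (n * x * n⁻¹) * t * (n * x * n⁻¹)⁻¹ * t⁻¹ ∈ centralizer (L : Set G) := by
  have hlN : l ∈ normalizer (L : Set G) := Subgroup.le_normalizer hl
  obtain ⟨d, hd, rfl⟩ : ∃ d ∈ centralizer (L : Set G), n = l * d :=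
    ⟨l⁻¹ * n, hn, (mul_inv_cancel_left l n).symm⟩
  obtain ⟨c, hc, rfl⟩ : ∃ c ∈ centralizer (L : Set G), t = s * c :=
    ⟨s⁻¹ * t, hst, (mul_inv_cancel_left s t).symm⟩
  -- `w = n * x * n⁻¹ = d'' * (l * x * l⁻¹)`
  have hdx : d * x * d⁻¹ * x⁻¹ ∈ centralizer (L : Set G) := by
    have h1 := conj_centralizer hx (inv_mem hd)
    have h2 : d * x * d⁻¹ * x⁻¹ = d * (x * d⁻¹ * x⁻¹) := by group
    rw [h2]
    exact mul_mem hd h1
  have hd2 : l * (d * x * d⁻¹ * x⁻¹) * l⁻¹ ∈ centralizer (L : Set G) := conj_centralizer hlN hdx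
  have hw : l * d * x * (l * d)⁻¹ = (l * (d * x * d⁻¹ * x⁻¹) * l⁻¹) * (l * x * l⁻¹) := by group
  have hwN : l * d * x * (l * d)⁻¹ ∈ normalizer (L : Set G) := by
    rw [hw]
    refine mul_mem (mem_of_comm fun y hy => (mem_centralizer_iff.1 hd2 y hy).symm) ?_
    exact mul_mem (mul_mem hlN hx) (inv_mem hlN)
  have hws : (l * d * x * (l * d)⁻¹) * s = s * (l * d * x * (l * d)⁻¹) := by
    rw [hw, mul_assoc, h, ← mul_assoc, ← mem_centralizer_iff.1 hd2 s hs, mul_assoc s]
  set w := l * d * x * (l * d)⁻¹ with hwdef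
  have hcw : w * c * w⁻¹ ∈ centralizer (L : Set G) := conj_centralizer hwN hc
  have e1 : w * (s * c) * w⁻¹ * (s * c)⁻¹ = s * (w * c * w⁻¹ * c⁻¹) * s⁻¹ := by
    calc w * (s * c) * w⁻¹ * (s * c)⁻¹ = (w * s) * c * w⁻¹ * (s * c)⁻¹ := by group
      _ = (s * w) * c * w⁻¹ * (s * c)⁻¹ := by rw [hws]
      _ = s * (w * c * w⁻¹ * c⁻¹) * s⁻¹ := by group
  rw [e1]
  exact conj_centralizer (Subgroup.le_normalizer hs) (mul_mem hcw (inv_mem hc))

theorem rank_transfer [hp : Fact p.Prime] [Finite G] {F D : Set (Subgroup G)} {S : Set G}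
    (hF : Family p F) (hDF : D ⊆ F)
    (hconj : ∀ L ∈ D, ∀ g : G, L.map (MulAut.conj g).toMonoidHom ∈ D)
    (hU : ∀ L ∈ D, Uniform p S L) {z t : G} (hz : z ∈ Sel D S) (ht : t ∈ Sel D S)
    {E : Subgroup G} (hE : E ∈ ApB p G) (hEz : E ≤ Cent0 F D z) :
    ∃ E' ∈ ApB p G, E' ≤ Cent0 F D t ∧ Nat.card E' = Nat.card E := by
  classical
  have hFam := family_Fam hF hDF hconj
  set N : Subgroup G := Gn D with hN
  have hNnormal : N.Normal := by
    refine ⟨fun n hn g => ?_⟩
    have h1 : g ∈ normalizer (Gn D : Set G) := mem_normalizer_Gn fun L hL => hconj L hL g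
    exact (mem_normalizer_iff.1 h1 n).1 hn
  have hNR : N ≤ Rz (Rest F D) D := hFam.gn_le_Rz
  have hNK : N ≤ Kout D := by
    refine iSup₂_le fun M hM x hx => ?_
    refine mem_iInf.2 fun L => mem_iInf.2 fun hL => ?_
    by_cases h : M = L
    · rw [← h]
      exact mem_sup_left hx
    · refine mem_sup_right ?_
      rw [mem_centralizer_iff]
      intro y hy
      exact (hFam.comm M hM L hL h x hx y hy).symm
  have hEp : ∀ x ∈ E, x ^ p = 1 := by
    intro x hx
    rcases hE with h | h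
    · rw [h, mem_bot] at hx
      rw [hx, one_pow]
    · exact h.2.2 x hx
  have hEc : ∀ x ∈ E, ∀ y ∈ E, x * y = y * x := by
    intro x hx y hy
    rcases hE with h | h
    · rw [h, mem_bot] at hx
      rw [hx, one_mul, mul_one]
    · exact h.2.1 x hx y hy
  have htN : t ∈ N := ht.1
  -- elements of `p`-power order `1` or `p` in `N ⊓ Cent0 F D y` are trivial
  have hint : ∀ y ∈ Sel D S, ∀ x ∈ N, x ∈ Cent0 F D y → x ^ p = 1 → x = 1 := by
    intro y hy x hxN hxC hxp
    by_contra hne
    have h1 : orderOf x = p := orderOf_eq_prime hxp hne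
    have h2 := lc_prime hF hDF hU hy
    have h3 : orderOf x ∣ Nat.card (Kout D ⊓ Cent0 F D y : Subgroup G) :=
      Subgroup.orderOf_dvd_natCard _ ⟨hNK hxN, hxC⟩
    rw [h1] at h3
    exact h2 h3
  -- (a)
  have ha : ∀ x ∈ E, ∃ n ∈ N, (n * x * n⁻¹) * t = t * (n * x * n⁻¹) := by
    intro x hx
    obtain ⟨hxR, hxz, hxn⟩ := mem_Cent0.1 (hEz hx)
    have h1 : ∀ L ∈ D, ∃ l ∈ L, ∃ s ∈ L, s⁻¹ * t ∈ centralizer (L : Set G) ∧
        l * x * l⁻¹ * s = s * (l * x * l⁻¹) := by
      intro L hL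
      obtain ⟨s, hsS, hsL, hsz⟩ := hz.2 L hL
      obtain ⟨s', hsS', hsL', hst⟩ := ht.2 L hL
      have hxs : x * s = s * x := comp_comm (hFam.centre L hL) hsL hsz (hxn L hL) hxz
      obtain ⟨l, hl, h⟩ := (hU L hL).indep s hsS hsL s' hsS' hsL' x (hxn L hL)
        (by rw [hEp x hx]; exact one_mem _) hxs
      exact ⟨l, hl, s', hsL', hst, h⟩
    choose! l hl s hs hst hls using h1
    obtain ⟨n, hn, hn'⟩ := le_prod hFam l hl D (Set.toFinite D) (Set.Subset.refl D)
    refine ⟨n, hn, ?_⟩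
    have h2 : (n * x * n⁻¹) * t * (n * x * n⁻¹)⁻¹ * t⁻¹ = 1 := by
      refine le_key hFam D (Set.toFinite D) (Set.Subset.refl D) _ ?_ ?_
      · have h3 : (n * x * n⁻¹) * t * (n * x * n⁻¹)⁻¹ ∈ N := hNnormal.conj_mem t htN _
        exact mul_mem h3 (inv_mem htN)
      · intro L hL a ha
        have h3 := le_comp (hl L hL) (hn' L hL) (hs L hL) (hst L hL) (hxn L hL) (hls L hL)
        exact (mem_centralizer_iff.1 h3 a ha).symm
    rw [mul_inv_eq_one, mul_inv_eq_iff_eq_mul] at h2
    exact h2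
  -- (b)
  set H : Subgroup G := E ⊔ N with hH
  set Ht : Subgroup G := H ⊓ centralizer {t} with hHt
  have hHtN : Ht ⊔ N = H := by
    refine le_antisymm (sup_le inf_le_left le_sup_right) (sup_le ?_ le_sup_right)
    intro x hx
    obtain ⟨n, hn, h⟩ := ha x hx
    have h1 : n * x * n⁻¹ ∈ Ht := by
      refine Subgroup.mem_inf.2 ⟨?_, ?_⟩
      · have hnH : n ∈ H := mem_sup_right hn
        exact mul_mem (mul_mem hnH (mem_sup_left hx)) (inv_mem hnH)
      · rw [mem_centralizer_iff]
        intro y hy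
        rw [Set.mem_singleton_iff.1 hy]
        exact h.symm
    have h2 : x * n⁻¹ * x⁻¹ ∈ N := hNnormal.conj_mem _ (inv_mem hn) x
    have h3 : x = (n * (x * n⁻¹ * x⁻¹))⁻¹ * (n * x * n⁻¹) := by group
    rw [h3]
    exact mul_mem (inv_mem (mem_sup_right (mul_mem hn h2))) (mem_sup_left h1)
  have hEN : N ⊓ E = ⊥ := by
    rw [eq_bot_iff]
    intro x hx
    rw [mem_bot]
    obtain ⟨hx1, hx2⟩ := Subgroup.mem_inf.1 hx
    exact hint z hz x hx1 (hEz hx2) (hEp x hx2)
  have hHR : H ≤ Rz (Rest F D) D := by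
    refine sup_le (hEz.trans ?_) hNR
    rw [Cent0_eq]
    exact inf_le_left
  have hHtC : Ht ≤ Cent0 F D t := by
    rw [Cent0_eq]
    exact inf_le_inf_right _ hHR
  have hcard : Nat.card Ht = Nat.card (N ⊓ Ht : Subgroup G) * Nat.card E := by
    have h1 : N.relIndex Ht = N.relIndex H := by rw [← hHtN, relIndex_sup_right]
    have h2 : N.relIndex H = N.relIndex E := relIndex_sup_right E N
    have h3 : N.relIndex E = Nat.card E := by
      rw [← inf_relIndex_right, hEN, relIndex_bot_left]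
    have h4 := relIndex_mul_relIndex (⊥ : Subgroup G) (N ⊓ Ht) Ht bot_le inf_le_right
    rw [inf_relIndex_right, h1, h2, h3, relIndex_bot_left, relIndex_bot_left] at h4
    exact h4.symm
  have hndvd : ¬ p ∣ Nat.card (N ⊓ Ht : Subgroup G) := by
    intro hdvd
    refine lc_prime hF hDF hU ht (hdvd.trans (Subgroup.card_dvd_of_le ?_))
    exact inf_le_inf hNK hHtC
  obtain ⟨k, hk⟩ : ∃ k, Nat.card E = p ^ k :=
    (IsPGroup.iff_card).1 (isPGroup_of_ApB hE)
  let P : Sylow p Ht := default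
  have hPcard : Nat.card P = p ^ k := by
    have h1 := P.card_eq_multiplicity
    rw [h1]
    congr 1
    rw [hcard, hk, Nat.factorization_mul Nat.card_pos.ne' (pow_pos hp.out.pos k).ne']
    rw [Finsupp.add_apply, Nat.factorization_eq_zero_of_not_dvd hndvd, zero_add,
      hp.out.factorization_pow, Finsupp.single_eq_same]
  set E' : Subgroup G := (P : Subgroup Ht).map Ht.subtype with hE'
  have hE'card : Nat.card E' = Nat.card E := by
    rw [hE', Subgroup.card_map_of_injective Ht.subtype_injective, hk]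
    exact hPcard
  have hE'Ht : E' ≤ Ht := by
    rw [hE']
    exact Subgroup.map_subtype_le _
  have hE'p : IsPGroup p E' := by
    rw [IsPGroup.iff_card]
    exact ⟨k, hE'card.trans hk⟩
  have hE'N : ∀ x ∈ E', x ∈ N → x = 1 := by
    intro x hx hxN
    obtain ⟨m, hm⟩ := hE'p ⟨x, hx⟩
    have hm' : x ^ p ^ m = 1 := by
      have := congrArg Subtype.val hm
      simpa using this
    have h1 : orderOf x ∣ p ^ m := orderOf_dvd_of_pow_eq_one hm'
    have h2 : orderOf x ∣ Nat.card (N ⊓ Ht : Subgroup G) :=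
      Subgroup.orderOf_dvd_natCard _ ⟨hxN, hE'Ht hx⟩
    have h3 : Nat.Coprime (p ^ m) (Nat.card (N ⊓ Ht : Subgroup G)) :=
      Nat.Coprime.pow_left m ((Nat.Prime.coprime_iff_not_dvd hp.out).2 hndvd)
    have h4 := Nat.eq_one_of_dvd_coprimes h3 h1 h2
    exact orderOf_eq_one_iff.1 h4
  have hmod : ∀ x ∈ H, ∃ e ∈ E, QuotientGroup.mk' N x = QuotientGroup.mk' N e := by
    intro x hx
    obtain ⟨e, he, n, hn, rfl⟩ := Subgroup.mem_sup_of_normal_right.1 hx
    refine ⟨e, he, ?_⟩
    rw [map_mul, (QuotientGroup.eq_one_iff n).2 hn |> fun h => (show QuotientGroup.mk' N n = 1 from h),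
      mul_one]
  have hpow : ∀ x ∈ E', x ^ p = 1 := by
    intro x hx
    refine hE'N _ (pow_mem hx p) ?_
    obtain ⟨e, he, hxe⟩ := hmod x (Subgroup.mem_inf.1 (hE'Ht hx)).1
    rw [← QuotientGroup.eq_one_iff]
    change QuotientGroup.mk' N (x ^ p) = 1
    rw [map_pow, hxe, ← map_pow, hEp e he, map_one]
  have hcomm : ∀ x ∈ E', ∀ y ∈ E', x * y = y * x := by
    intro x hx y hy
    have h1 : x * y * (y * x)⁻¹ = 1 := by
      refine hE'N _ (mul_mem (mul_mem hx hy) (inv_mem (mul_mem hy hx))) ?_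
      obtain ⟨e, he, hxe⟩ := hmod x (Subgroup.mem_inf.1 (hE'Ht hx)).1
      obtain ⟨f, hf, hyf⟩ := hmod y (Subgroup.mem_inf.1 (hE'Ht hy)).1
      rw [← QuotientGroup.eq_one_iff]
      change QuotientGroup.mk' N (x * y * (y * x)⁻¹) = 1
      rw [map_mul, map_inv, map_mul, map_mul, hxe, hyf, ← map_mul, ← map_mul, hEc e he f hf,
        mul_inv_cancel]
    exact mul_inv_eq_one.1 h1
  refine ⟨E', ?_, hE'Ht.trans hHtC, hE'card⟩
  by_cases hb : E' = ⊥
  · exact Or.inl hb
  · exact Or.inr ⟨hb, hcomm, hpow⟩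

end

end Vale.Agent.P240.K
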