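import Vale.Agent.P240.W.LA
import Vale.Agent.P240.W.LC2
import Vale.Agent.P240.W.LC3
import Vale.Agent.P240.W.LD2
import Vale.Agent.P240.W.LE

/-!
P240-L5. `uniform_scm`: apply `scm_of_comm` to the group `Cent0 F D z` and
`W = (Kout D).subgroupOf (Cent0 F D z)`; `W` is isomorphic to `Kout D ⊓ Cent0 F D z` (solvable by
`lc_solvable`, of order prime to `p` by `lc_prime`), normal by `lc_normal`; the other hypotheses are
`lc_faithful` and `lc_comm`.
`rankIs_iff`: unfold `RankIs` (file `W/PDefs.lean`), `ApB`.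
-/

namespace Vale.Agent.P240.K

open Finsupp Subgroup

universe u v

variable {𝕜 : Type v} [Field 𝕜]

section
variable {G : Type u} [Group G] {p : ℕ}

lemma uniform_scm [hp : Fact p.Prime] [Finite G] {F D : Set (Subgroup G)} {S : Set G}
    (hF : Family p F) (hDF : D ⊆ F)
    (hconj : ∀ L ∈ D, ∀ g : G, L.map (MulAut.conj g).toMonoidHom ∈ D)
    (hU : ∀ L ∈ D, Uniform p S L)
    (hsol : Group.IsSolvable (⨅ L ∈ F, centralizer (L : Set G) : Subgroup G)) {z : G}
    (hz : z ∈ Sel D S) : SolvableByCM p (Cent0 F D z) := by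
  have e : (Kout D ⊓ Cent0 F D z : Subgroup G) ≃* ((Kout D).subgroupOf (Cent0 F D z)) :=
    { toFun := fun x => ⟨⟨x, (Subgroup.mem_inf.1 x.2).2⟩,
        Subgroup.mem_subgroupOf.2 (Subgroup.mem_inf.1 x.2).1⟩
      invFun := fun x => ⟨x.1.1, Subgroup.mem_inf.2 ⟨Subgroup.mem_subgroupOf.1 x.2, x.1.2⟩⟩
      left_inv := fun x => rfl
      right_inv := fun x => rfl
      map_mul' := fun x y => rfl }
  have hs := lc_solvable hF hDF hU hsol hz
  have hpr := lc_prime hF hDF hU hz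
  refine scm_of_comm ((Kout D).subgroupOf (Cent0 F D z)) ⟨fun w hw g => ?_⟩ ?_ ?_ ?_ ?_
  · rw [Subgroup.mem_subgroupOf] at hw ⊢
    exact lc_normal z g g.2 w hw
  · exact Group.isSolvable_of_isSolvable_injective (f := e.symm.toMonoidHom) e.symm.injective
  · rwa [← Nat.card_congr e.toEquiv]
  · intro x hx hxw
    refine Subtype.ext (lc_faithful hF hDF hconj hU hz x.2 ?_ fun w hw => ?_)
    · exact congrArg Subtype.val hx
    · have h1 := hxw ⟨w, (Subgroup.mem_inf.1 hw).2⟩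
        (Subgroup.mem_subgroupOf.2 (Subgroup.mem_inf.1 hw).1)
      exact congrArg Subtype.val h1
  · intro x y hx hy
    exact Subgroup.mem_subgroupOf.2 (lc_comm hF hDF hU hz x.2 y.2 (congrArg Subtype.val hx)
      (congrArg Subtype.val hy))

lemma rankIs_iff [Finite G] {C : Subgroup G} {k : ℕ} : RankIs p C k ↔
    (∃ E ∈ ApB p G, E ≤ C ∧ Nat.card E = p ^ k) ∧
      ∀ E ∈ ApB p G, E ≤ C → Nat.card E ≤ p ^ k := by
  have hcard : ∀ E : Subgroup C, Nat.card (E.map C.subtype) = Nat.card E := fun E =>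
    (Nat.card_congr (E.equivMapOfInjective C.subtype C.subtype_injective).toEquiv).symm
  have hcard' : ∀ E : Subgroup G, E ≤ C → Nat.card (E.subgroupOf C) = Nat.card E := fun E hE => by
    rw [← hcard, Subgroup.map_subgroupOf_eq_of_le hE]
  have hAp : ∀ E : Subgroup C, ElemAb p E → E.map C.subtype ∈ ApS p G := by
    intro E hE
    refine ⟨fun h => hE.1 ?_, ?_, ?_⟩
    · exact (Subgroup.map_eq_bot_iff_of_injective E C.subtype_injective).1 h
    · rintro _ ⟨x, hx, rfl⟩ _ ⟨y, hy, rfl⟩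
      exact congrArg Subtype.val (hE.2.1 x hx y hy)
    · rintro _ ⟨x, hx, rfl⟩
      exact congrArg Subtype.val (hE.2.2 x hx)
  have hAp' : ∀ E : Subgroup G, E ≤ C → E ∈ ApS p G → ElemAb p (E.subgroupOf C) := by
    intro E hE hA
    refine ⟨fun h => hA.1 ?_, ?_, ?_⟩
    · rw [← Subgroup.map_subgroupOf_eq_of_le hE, h, Subgroup.map_bot]
    · intro x hx y hy
      exact Subtype.ext (hA.2.1 x (Subgroup.mem_subgroupOf.1 hx) y (Subgroup.mem_subgroupOf.1 hy))
    · intro x hx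
      exact Subtype.ext (hA.2.2 x (Subgroup.mem_subgroupOf.1 hx))
  constructor
  · rintro ⟨⟨E, hE, hk⟩, h2⟩
    refine ⟨⟨E.map C.subtype, ?_, Subgroup.map_subtype_le E, by rw [hcard, hk]⟩, ?_⟩
    · rcases hE with h | h
      · left
        rw [h, Subgroup.map_bot]
      · exact Or.inr (hAp E h)
    · intro E' hE' hC
      rcases hE' with h | h
      · rw [← hk, h, Subgroup.card_bot]
        exact Nat.one_le_iff_ne_zero.2 Nat.card_pos.ne'
      · rw [← hcard' E' hC]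
        exact h2 _ (hAp' E' hC h)
  · rintro ⟨⟨E, hE, hC, hk⟩, h2⟩
    refine ⟨⟨E.subgroupOf C, ?_, by rw [hcard' E hC, hk]⟩, ?_⟩
    · rcases hE with h | h
      · left
        rw [h, Subgroup.bot_subgroupOf]
      · exact Or.inr (hAp' E hC h)
    · intro E' hE'
      rw [← hcard]
      exact h2 _ (Or.inr (hAp E' hE')) (Subgroup.map_subtype_le E')

/-- **Local criterion** -/
theorem final8 [hp : Fact p.Prime] [Finite G] (F D : Set (Subgroup G)) (S : Set G)
    (hF : Family p F)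
    (hsol : Group.IsSolvable (⨅ L ∈ F, centralizer (L : Set G) : Subgroup G)) (hDF : D ⊆ F)
    (hconj : ∀ L ∈ D, ∀ g : G, L.map (MulAut.conj g).toMonoidHom ∈ D)
    (hS : ∀ L ∈ D, ∀ h ∈ Rest F D, h ^ p = 1 → h ∉ normalizer (L : Set G) → ∀ s ∈ S, s ∈ L →
      h * s * h⁻¹ ∈ S)
    (hU : ∀ L ∈ D, Uniform p S L) (hT : ∀ L ∈ F, L ∈ D ∨ Removable 𝕜 p L) : HQ 𝕜 p G := by
  refine final6 F D S hF hS (sel_nonempty hF hDF hU)
    (fun z hz => ⟨uniform_good hF hDF hconj hU hz, uniform_scm hF hDF hconj hU hsol hz⟩) ?_ hT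
  intro y hy z hz j k hj hk
  have h1 : ∀ y ∈ Sel D S, ∀ z ∈ Sel D S, ∀ j k : ℕ, RankIs p (Cent0 F D y) j →
      RankIs p (Cent0 F D z) k → j ≤ k := by
    intro y hy z hz j k hj hk
    rw [rankIs_iff] at hj hk
    obtain ⟨⟨E, hE, hEC, hcard⟩, _⟩ := hj
    obtain ⟨E', hE', hE'C, hcard'⟩ := rank_transfer hF hDF hconj hU hy hz hE hEC
    have h2 := hk.2 E' hE' hE'C
    rw [hcard', hcard] at h2
    exact (Nat.pow_le_pow_iff_right hp.out.one_lt).1 h2
  rw [le_antisymm (h1 y hy z hz j k hj hk) (h1 z hz y hy k j hk hj)]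

end

end Vale.Agent.P240.K
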