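import Vale.Agent.P240.W.Split

/-!
P240-W7. Orbits of components.
-/

namespace Vale.Agent.P240.K

open Finsupp Subgroup

section
variable {G : Type*} [Group G] {p : ℕ}

/-- conjugating with an element that moves `M` and centralizes `x` -/
lemma orb_At_step {R : Subgroup G} {D : Set (Subgroup G)} {S : Set G}
    (hS : ∀ L ∈ D, ∀ h ∈ R, h ^ p = 1 → h ∉ normalizer (L : Set G) → ∀ s ∈ S, s ∈ L →
      h * s * h⁻¹ ∈ S)
    {M : Subgroup G} (hM : M ∈ D) {f x : G} (hfR : f ∈ R) (hfp : f ^ p = 1)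
    (hfx : f * x = x * f) (h : At S M x) : At S (cj f M) x := by
  by_cases hn : f ∈ normalizer (M : Set G)
  · rw [cj_eq_iff.2 hn]
    exact h
  · obtain ⟨s, hs, hsM, hc⟩ := h
    refine ⟨f * s * f⁻¹, hS M hM f hfR hfp hn s hs hsM, cj_mul_mem hsM, ?_⟩
    rw [mem_centralizer_iff] at hc ⊢
    intro y hy
    have hy' : f⁻¹ * y * f ∈ M := mem_cj.1 hy
    have h1 := hc _ hy'
    have h2 : (f * s * f⁻¹)⁻¹ * x = f * (s⁻¹ * x) * f⁻¹ := by
      have h3 : f⁻¹ * x = x * f⁻¹ := by
        have := congrArg (fun z => f⁻¹ * z * f⁻¹) hfx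
        simp only [← mul_assoc, inv_mul_cancel, one_mul] at this
        simp only [mul_assoc, mul_inv_cancel, mul_one] at this
        exact this.symm
      calc (f * s * f⁻¹)⁻¹ * x = f * s⁻¹ * (f⁻¹ * x) := by group
        _ = f * s⁻¹ * (x * f⁻¹) := by rw [h3]
        _ = f * (s⁻¹ * x) * f⁻¹ := by group
    rw [h2]
    calc y * (f * (s⁻¹ * x) * f⁻¹) = f * ((f⁻¹ * y * f) * (s⁻¹ * x)) * f⁻¹ := by group
      _ = f * ((s⁻¹ * x) * (f⁻¹ * y * f)) * f⁻¹ := by rw [h1]
      _ = f * (s⁻¹ * x) * f⁻¹ * y := by group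

/-- a `p`-group `F ≤ R` that permutes the members of an orbit `O` of length `> 1`; an element `x`
centralizing `F` has `At S M x` for no or for all `M ∈ O`, so `p ∣ cnt S O x`. The length of the orbit
of `L` is the index of `{f ∈ F | cj f L = L}`, a power of `p` larger than `1`. -/
lemma Fam.dvd_cnt [hp : Fact p.Prime] [Finite G] {R : Subgroup G} {D : Set (Subgroup G)}
    (hD : Fam p R D) {S : Set G}
    (hS : ∀ L ∈ D, ∀ h ∈ R, h ^ p = 1 → h ∉ normalizer (L : Set G) → ∀ s ∈ S, s ∈ L →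
      h * s * h⁻¹ ∈ S)
    {F : Subgroup G} (hF : F ∈ ApS p G) (hFR : F ≤ R) {L : Subgroup G} (hL : L ∈ D)
    (hmove : ¬ F ≤ normalizer (L : Set G)) {x : G} (hx : x ∈ centralizer (F : Set G)) :
    p ∣ cnt S {M | ∃ f ∈ F, M = cj f L} x := by
  classical
  have hfx : ∀ f ∈ F, f * x = x * f := fun f hf => (mem_centralizer_iff.1 hx) f hf
  have hD' : ∀ f ∈ F, cj f L ∈ D := fun f hf => hD.conj L hL f (hFR hf)
  -- all or none
  have hall : ∀ f ∈ F, (At S (cj f L) x ↔ At S L x) := by
    intro f hf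
    constructor
    · intro h
      have h1 := orb_At_step hS (hD' f hf) (hFR (inv_mem hf)) (hF.2.2 _ (inv_mem hf))
        (hfx _ (inv_mem hf)) h
      rwa [← cj_mul, inv_mul_cancel, cj_one] at h1
    · intro h
      exact orb_At_step hS hL (hFR hf) (hF.2.2 _ hf) (hfx _ hf) h
  by_cases hat : At S L x
  · -- the whole orbit
    have hset : {M | M ∈ {M | ∃ f ∈ F, M = cj f L} ∧ At S M x} = {M | ∃ f ∈ F, M = cj f L} := by
      ext M
      constructor
      · exact fun h => h.1
      · rintro ⟨f, hf, rfl⟩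
        exact ⟨⟨f, hf, rfl⟩, (hall f hf).2 hat⟩
    unfold cnt
    rw [hset]
    let act : MulAction F (Subgroup G) :=
      { smul := fun f M => cj (f : G) M
        one_smul := fun M => cj_one M
        mul_smul := fun f g M => cj_mul (f : G) (g : G) M }
    have horb : {M | ∃ f ∈ F, M = cj f L} = MulAction.orbit F L := by
      ext M
      rw [MulAction.mem_orbit_iff]
      constructor
      · rintro ⟨f, hf, rfl⟩
        exact ⟨⟨f, hf⟩, rfl⟩
      · rintro ⟨f, rfl⟩
        exact ⟨f, f.2, rfl⟩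
    rw [horb]
    have hpG : IsPGroup p F := by
      intro g
      refine ⟨1, ?_⟩
      rw [pow_one]
      apply Subtype.ext
      simpa using hF.2.2 g g.2
    obtain ⟨n, hn⟩ := hpG.card_orbit (α := Subgroup G) L
    have hcard : (MulAction.orbit F L).ncard = p ^ n := by
      rw [← hn]
      rfl
    rw [hcard]
    rcases Nat.eq_zero_or_pos n with h0 | h0
    · exfalso
      rw [h0, pow_zero] at hcard
      obtain ⟨M, hM⟩ := Set.ncard_eq_one.1 hcard
      apply hmove
      intro f hf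
      rw [← cj_eq_iff]
      have h1 : cj f L ∈ MulAction.orbit F L := by rw [← horb]; exact ⟨f, hf, rfl⟩
      have h2 : L ∈ MulAction.orbit F L := MulAction.mem_orbit_self L
      rw [hM, Set.mem_singleton_iff] at h1 h2
      rw [h1, h2]
    · exact dvd_pow_self p h0.ne'
  · have hset : {M | M ∈ {M | ∃ f ∈ F, M = cj f L} ∧ At S M x} = ∅ := by
      ext M
      simp only [Set.mem_ofPred_eq, Set.mem_empty_iff_false, iff_false]
      rintro ⟨⟨f, hf, rfl⟩, h⟩
      exact hat ((hall f hf).1 h)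
    unfold cnt
    rw [hset, Set.ncard_empty]
    exact dvd_zero p

end

end Vale.Agent.P240.K
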