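import Vale.Agent.P240.W.Gen

/-!
P240-W. The `p`-adic local condition.
-/

namespace Vale.Agent.P240.K

open Finsupp Subgroup

section
variable {G : Type*} [Group G] {p : ℕ}

lemma At_iff_mem {S : Set G} {L : Subgroup G} (hc : L ⊓ centralizer (L : Set G) = ⊥) {a : G}
    (ha : a ∈ L) : At S L a ↔ a ∈ S := by
  constructor
  · rintro ⟨s, hs, hsL, h⟩
    have h1 : s⁻¹ * a ∈ L ⊓ centralizer (L : Set G) :=
      Subgroup.mem_inf.2 ⟨L.mul_mem (L.inv_mem hsL) ha, h⟩
    rw [hc, Subgroup.mem_bot, inv_mul_eq_one] at h1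
    exact h1 ▸ hs
  · intro h
    exact ⟨a, h, ha, by rw [inv_mul_cancel]; exact one_mem _⟩

lemma lam_bot (g : G) : lam p (⊥ : Subgroup G) g = 1 := by
  have h : {E : Subgroup G | E ∈ Ain p (⊥ : Subgroup G) ∧ g ∈ normalizer (E : Set G)} = ∅ := by
    ext E
    simp only [Set.mem_ofPred_eq, Set.mem_empty_iff_false, iff_false]
    rintro ⟨h1, _⟩
    exact h1.1.1 (le_bot_iff.1 h1.2)
  rw [lam, h, eu_rec Set.finite_empty]
  simp

lemma lam_conj (n g : G) (K : Subgroup G) : lam p (cj n K) (n * g * n⁻¹) = lam p K g := by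
  have h2 : {E | E ∈ Ain p (cj n K) ∧ n * g * n⁻¹ ∈ normalizer (E : Set G)} =
      cjIso n '' {E | E ∈ Ain p K ∧ g ∈ normalizer (E : Set G)} := by
    have key : ∀ E : Subgroup G, n * g * n⁻¹ ∈ normalizer ((cj n E : Subgroup G) : Set G) ↔
        g ∈ normalizer (E : Set G) := by
      intro E
      rw [← cj_eq_iff, ← cj_eq_iff, ← cj_mul]
      have h3 : n * g * n⁻¹ * n = n * g := by group
      rw [h3, cj_mul]
      exact (cj_injective n).eq_iff
    ext E
    constructor
    · rintro ⟨⟨h1, h2⟩, h3⟩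
      have hE : cj n (cj n⁻¹ E) = E := by rw [← cj_mul, mul_inv_cancel, cj_one]
      refine ⟨cj n⁻¹ E, ⟨⟨cj_mem_ApS.2 h1, ?_⟩, ?_⟩, hE⟩
      · rw [← cj_le (g := n), hE]
        exact h2
      · rw [← key, hE]
        exact h3
    · rintro ⟨Z, ⟨⟨hZ1, hZ2⟩, hZ3⟩, rfl⟩
      exact ⟨⟨cj_mem_ApS.2 hZ1, cj_le.2 hZ2⟩, (key Z).2 hZ3⟩
  rw [lam, h2, eu_image]
  rfl

/-- product sums over the join of the members of `O` centralizing `F` -/
lemma Fam.sum_prod [Finite G] {R : Subgroup G} {D : Set (Subgroup G)} (hD : Fam p R D)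
    {F : Subgroup G} (hF : F ≤ Rz R D) (θ : Subgroup G → G → ℤ)
    (Θ : Set (Subgroup G) → G → ℤ) (h0 : Θ ∅ 1 = 1)
    (hs : ∀ L ∈ D, ∀ O ⊆ D, L ∉ O → ∀ a ∈ L ⊓ centralizer (F : Set G),
      ∀ b ∈ Gn O ⊓ centralizer (F : Set G), Θ (insert L O) (a * b) = θ L a * Θ O b) :
    ∀ O : Set (Subgroup G), O.Finite → O ⊆ D →
      ∑ g ∈ (Set.toFinite ((Gn O ⊓ centralizer (F : Set G) : Subgroup G) : Set G)).toFinset, Θ O g =
        ∏ L ∈ (Set.toFinite O).toFinset,
          ∑ a ∈ (Set.toFinite ((L ⊓ centralizer (F : Set G) : Subgroup G) : Set G)).toFinset,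
            θ L a := by
  classical
  intro O hfin
  induction O, hfin using Set.Finite.induction_on with
  | empty =>
    intro _
    have h1 : (Set.toFinite ((Gn (∅ : Set (Subgroup G)) ⊓ centralizer (F : Set G) :
        Subgroup G) : Set G)).toFinset = {1} := by
      ext x
      rw [Set.Finite.mem_toFinset, Finset.mem_singleton]
      have h2 : Gn (∅ : Set (Subgroup G)) = ⊥ := by simp [Gn]
      rw [h2, bot_inf_eq]
      simp
    rw [h1, Finset.sum_singleton, h0]
    simp
  | @insert L O hLO hfin ih =>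
    intro hsub
    have hL : L ∈ D := hsub (Set.mem_insert _ _)
    have hO : O ⊆ D := fun M hM => hsub (Set.mem_insert_of_mem _ hM)
    have hL1 : ({L} : Set (Subgroup G)) ⊆ D := Set.singleton_subset_iff.2 hL
    have hdis : Disjoint ({L} : Set (Subgroup G)) O := Set.disjoint_singleton_left.2 hLO
    have hst : ∀ f ∈ F, ∀ M ∈ D, cj f M = M := fun f hf M hM =>
      cj_eq_iff.2 ((mem_Rz.1 (hF hf)).2 M hM)
    have hdec := hD.inf_centralizer hL1 hO hdis (F := F)
      (fun f hf M hM => by rw [hst f hf M (hL1 hM)]; exact hM)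
      (fun f hf M hM => by rw [hst f hf M (hO hM)]; exact hM)
    have hGL : Gn ({L} : Set (Subgroup G)) = L := by simp [Gn]
    rw [Set.singleton_union, hGL] at hdec
    have hcomm : ∀ x ∈ L ⊓ centralizer (F : Set G), ∀ y ∈ Gn O ⊓ centralizer (F : Set G),
        x * y = y * x := fun x hx y hy =>
      hD.gn_comm hL1 hO hdis x (by rw [hGL]; exact (Subgroup.mem_inf.1 hx).1) y
        (Subgroup.mem_inf.1 hy).1
    have hint : (L ⊓ centralizer (F : Set G)) ⊓ (Gn O ⊓ centralizer (F : Set G)) = ⊥ := by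
      rw [eq_bot_iff]
      refine (inf_le_inf inf_le_left inf_le_left).trans ?_
      have h3 := hD.gn_inf hL1 hO hdis
      rw [hGL] at h3
      exact h3.le
    have h1 : ∑ g ∈ (Set.toFinite ((Gn (insert L O) ⊓ centralizer (F : Set G) : Subgroup G) :
          Set G)).toFinset, Θ (insert L O) g =
        ∑ g ∈ (Set.toFinite (((L ⊓ centralizer (F : Set G)) ⊔
          (Gn O ⊓ centralizer (F : Set G)) : Subgroup G) : Set G)).toFinset,
            Θ (insert L O) g := by
      refine Finset.sum_congr ?_ fun _ _ => rfl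
      ext g
      rw [Set.Finite.mem_toFinset, Set.Finite.mem_toFinset, hdec]
    rw [h1, sum_sup hcomm hint]
    have h2 : (Set.toFinite (insert L O)).toFinset = insert L (Set.toFinite O).toFinset := by
      ext M
      simp
    have h3 : L ∉ (Set.toFinite O).toFinset := by
      rw [Set.Finite.mem_toFinset]
      exact hLO
    rw [h2, Finset.prod_insert h3, ← ih hO, Finset.sum_mul]
    refine Finset.sum_congr rfl fun a ha => ?_
    rw [Finset.mul_sum]
    refine Finset.sum_congr rfl fun b hb => ?_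
    rw [Set.Finite.mem_toFinset] at ha hb
    exact hs L hL O hO hLO a ha b hb

end

end Vale.Agent.P240.K
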