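import Vale.Agent.P240.W.PAdic2

namespace Vale.Agent.P240.K

open Finsupp Subgroup

universe u v

variable {𝕜 : Type v} [Field 𝕜]

/-- For `E ≤ R` elementary abelian, normalizing but not centralizing `L`, the number
`|L : C_L(E)| * wsum p S (C_L(E))` is divisible by a higher power of `p` than `wsum p S L`. -/
def PAdic {G : Type*} [Group G] (p : ℕ) (R : Subgroup G) (S : Set G) (L : Subgroup G) : Prop :=
  ∃ k : ℕ, ¬ (p : ℤ) ^ (k + 1) ∣ wsum p S L ∧
    ∀ E : Subgroup G, ElemAb p E → E ≤ R → E ≤ normalizer (L : Set G) →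
      ¬ E ≤ centralizer (L : Set G) →
      (p : ℤ) ^ (k + 1) ∣ ((L ⊓ centralizer (E : Set G)).relIndex L : ℤ) *
        wsum p S (L ⊓ centralizer (E : Set G))

lemma exact_val {p k : ℕ} {a : ℤ} (h : ¬ (p : ℤ) ^ (k + 1) ∣ a) :
    ∃ v ≤ k, (p : ℤ) ^ v ∣ a ∧ ¬ (p : ℤ) ^ (v + 1) ∣ a := by
  classical
  have hex : ∃ n, ¬ (p : ℤ) ^ (n + 1) ∣ a := ⟨k, h⟩
  refine ⟨Nat.find hex, Nat.find_min' hex h, ?_, Nat.find_spec hex⟩
  rcases Nat.eq_zero_or_pos (Nat.find hex) with h0 | h0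
  · rw [h0, pow_zero]
    exact one_dvd _
  · have h1 := Nat.find_min hex (Nat.sub_lt h0 Nat.one_pos)
    rw [not_not, Nat.sub_add_cancel h0] at h1
    exact h1

lemma exact_prod {ι : Type*} {p : ℕ} [hp : Fact p.Prime] (s : Finset ι) (v : ι → ℕ) (a : ι → ℤ)
    (h1 : ∀ i ∈ s, (p : ℤ) ^ v i ∣ a i) (h2 : ∀ i ∈ s, ¬ (p : ℤ) ^ (v i + 1) ∣ a i) :
    ¬ (p : ℤ) ^ (∑ i ∈ s, v i + 1) ∣ ∏ i ∈ s, a i := by
  classical
  have hpp : Prime (p : ℤ) := Nat.prime_iff_prime_int.1 hp.out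
  choose! b hb using h1
  have hb' : ∀ i ∈ s, ¬ (p : ℤ) ∣ b i := by
    intro i hi hd
    apply h2 i hi
    rw [hb i hi, pow_succ]
    exact mul_dvd_mul_left _ hd
  have h3 : ∏ i ∈ s, a i = (p : ℤ) ^ (∑ i ∈ s, v i) * ∏ i ∈ s, b i := by
    rw [Finset.prod_congr rfl hb, Finset.prod_mul_distrib, Finset.prod_pow_eq_pow_sum]
  rw [h3, pow_succ, mul_dvd_mul_iff_left (pow_ne_zero _ hpp.ne_zero)]
  intro h4
  obtain ⟨i, hi, h5⟩ := (Prime.dvd_finsetProd_iff hpp _).1 h4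
  exact hb' i hi h5

lemma strict_prod {ι : Type*} {p : ℕ} (s : Finset ι) (v : ι → ℕ) (a : ι → ℤ)
    (h1 : ∀ i ∈ s, (p : ℤ) ^ v i ∣ a i) {j : ι} (hj : j ∈ s) (h2 : (p : ℤ) ^ (v j + 1) ∣ a j) :
    (p : ℤ) ^ (∑ i ∈ s, v i + 1) ∣ ∏ i ∈ s, a i := by
  classical
  rw [← Finset.add_sum_erase s v hj, ← Finset.mul_prod_erase s a hj]
  have h3 : v j + ∑ x ∈ s.erase j, v x + 1 = (v j + 1) + ∑ x ∈ s.erase j, v x := by ring
  rw [h3, pow_add]
  refine mul_dvd_mul h2 ?_
  rw [← Finset.prod_pow_eq_pow_sum]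
  exact Finset.prod_dvd_prod_of_dvd _ _ fun i hi => h1 i (Finset.mem_of_mem_erase hi)

section
variable {G : Type u} [Group G] {p : ℕ}

/-- the elements of `Gn D` preserve `S ∩ L` -/
lemma stab_S {D : Set (Subgroup G)}
    (hcomm : ∀ L ∈ D, ∀ M ∈ D, L ≠ M → ∀ x ∈ L, ∀ y ∈ M, x * y = y * x) {S : Set G}
    (hSL : ∀ L ∈ D, ∀ g ∈ L, ∀ s ∈ S, s ∈ L → g * s * g⁻¹ ∈ S) :
    ∀ n ∈ Gn D, ∀ L ∈ D, ∀ s ∈ L, n * s * n⁻¹ ∈ L ∧ (n * s * n⁻¹ ∈ S ↔ s ∈ S) := by
  let H : Subgroup G :=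
    { carrier := {n | ∀ L ∈ D, ∀ s ∈ L, (n * s * n⁻¹ ∈ L ∧ (n * s * n⁻¹ ∈ S ↔ s ∈ S)) ∧
        (n⁻¹ * s * n ∈ L ∧ (n⁻¹ * s * n ∈ S ↔ s ∈ S))}
      one_mem' := by
        intro L _ s hs
        simp [hs]
      mul_mem' := by
        intro a b ha hb L hL s hs
        have h1 := (hb L hL s hs).1
        have h2 := (ha L hL _ h1.1).1
        have h3 := (ha L hL s hs).2
        have h4 := (hb L hL _ h3.1).2
        have e1 : a * b * s * (a * b)⁻¹ = a * (b * s * b⁻¹) * a⁻¹ := by group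
        have e2 : (a * b)⁻¹ * s * (a * b) = b⁻¹ * (a⁻¹ * s * a) * b := by group
        rw [e1, e2]
        exact ⟨⟨h2.1, h2.2.trans h1.2⟩, ⟨h4.1, h4.2.trans h3.2⟩⟩
      inv_mem' := by
        intro a ha L hL s hs
        have h := ha L hL s hs
        rw [inv_inv]
        exact ⟨h.2, h.1⟩ }
  have hle : Gn D ≤ H := by
    refine iSup₂_le fun M hM n hn L hL s hs => ?_
    by_cases h : M = L
    · subst h
      have h1 : n * s * n⁻¹ ∈ M := mul_mem (mul_mem hn hs) (inv_mem hn)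
      have h2 : n⁻¹ * s * n ∈ M := mul_mem (mul_mem (inv_mem hn) hs) hn
      refine ⟨⟨h1, ⟨fun h3 => ?_, fun h3 => hSL M hM n hn s h3 hs⟩⟩,
        ⟨h2, ⟨fun h3 => ?_, fun h3 => ?_⟩⟩⟩
      · have h4 := hSL M hM n⁻¹ (inv_mem hn) _ h3 h1
        have h5 : n⁻¹ * (n * s * n⁻¹) * n⁻¹⁻¹ = s := by group
        rwa [h5] at h4
      · have h4 := hSL M hM n hn _ h3 h2
        have h5 : n * (n⁻¹ * s * n) * n⁻¹ = s := by group
        rwa [h5] at h4
      · have h4 := hSL M hM n⁻¹ (inv_mem hn) s h3 hs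
        rwa [inv_inv] at h4
    · have h1 : n * s = s * n := hcomm M hM L hL h n hn s hs
      have h2 : n * s * n⁻¹ = s := by rw [h1, mul_inv_cancel_right]
      have h3 : n⁻¹ * s * n = s := by rw [mul_assoc, ← h1, inv_mul_cancel_left]
      rw [h2, h3]
      exact ⟨⟨hs, Iff.rfl⟩, ⟨hs, Iff.rfl⟩⟩
  exact fun n hn L hL s hs => (hle hn L hL s hs).1

lemma wsum_conj [Finite G] {S : Set G} {K : Subgroup G} {n : G}
    (hn : ∀ s ∈ K, (n * s * n⁻¹ ∈ S ↔ s ∈ S)) : wsum p S (cj n K) = wsum p S K := by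
  classical
  rw [wsum_eq, wsum_eq]
  symm
  refine Finset.sum_bij (fun a _ => n * a * n⁻¹) ?_ ?_ ?_ ?_
  · intro a ha
    rw [Set.Finite.mem_toFinset] at ha ⊢
    exact cj_mul_mem ha
  · intro a _ b _ h
    exact mul_left_cancel (mul_right_cancel h)
  · intro b hb
    rw [Set.Finite.mem_toFinset] at hb
    obtain ⟨a, ha, rfl⟩ := hb
    exact ⟨a, (Set.Finite.mem_toFinset _).2 ha, rfl⟩
  · intro a ha
    rw [Set.Finite.mem_toFinset] at ha
    rw [lam_conj]
    simp only [hn a ha]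

lemma cj_inf_centralizer {L F : Subgroup G} {n : G} (hn : n ∈ normalizer (L : Set G)) :
    L ⊓ centralizer ((cj n F : Subgroup G) : Set G) = cj n (L ⊓ centralizer (F : Set G)) := by
  have key : ∀ (m : G), m ∈ normalizer (L : Set G) → ∀ A : Subgroup G,
      cj m (L ⊓ centralizer (A : Set G)) ≤ L ⊓ centralizer ((cj m A : Subgroup G) : Set G) := by
    rintro m hm A _ ⟨x, hx, rfl⟩
    refine Subgroup.mem_inf.2 ⟨(mem_normalizer_iff.1 hm x).1 (Subgroup.mem_inf.1 hx).1, ?_⟩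
    rw [mem_centralizer_iff]
    rintro _ ⟨a, ha, rfl⟩
    have h1 := mem_centralizer_iff.1 (Subgroup.mem_inf.1 hx).2 a ha
    change m * a * m⁻¹ * (m * x * m⁻¹) = m * x * m⁻¹ * (m * a * m⁻¹)
    have e1 : m * a * m⁻¹ * (m * x * m⁻¹) = m * (a * x) * m⁻¹ := by group
    have e2 : m * x * m⁻¹ * (m * a * m⁻¹) = m * (x * a) * m⁻¹ := by group
    rw [e1, e2, h1]
  refine le_antisymm ?_ (key n hn F)
  have h2 := key n⁻¹ (inv_mem hn) (cj n F)
  rw [← cj_mul n⁻¹ n F, inv_mul_cancel, cj_one] at h2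
  have h3 := (cj_le (g := n)).2 h2
  rwa [← cj_mul, mul_inv_cancel, cj_one] at h3

/-- the local divisibility implies that the sum over the selected elements does not vanish -/
theorem Fam.padic [hp : Fact p.Prime] [Finite G] {R : Subgroup G} {D : Set (Subgroup G)}
    (hD : Fam p R D) {S : Set G}
    (hSL : ∀ L ∈ D, ∀ g ∈ L, ∀ s ∈ S, s ∈ L → g * s * g⁻¹ ∈ S)
    (hfaith : ∀ E : Subgroup G, ElemAb p E → E ≤ R → ∃ L ∈ D, ¬ E ≤ centralizer (L : Set G))
    (hloc : ∀ L ∈ D, PAdic p R S L) :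
    ∑ g ∈ (Set.toFinite (Sel D S)).toFinset, lam p (Rz R D) g ≠ 0 := by
  classical
  set N : Subgroup G := Gn D with hN
  have hNR : N ≤ Rz R D := hD.gn_le_Rz
  set Df := (Set.toFinite D).toFinset with hDf
  have hmemD : ∀ L, L ∈ Df ↔ L ∈ D := fun L => Set.Finite.mem_toFinset _
  -- the exact powers
  have hval : ∀ L : Subgroup G, ∃ v : ℕ, L ∈ D → (p : ℤ) ^ v ∣ wsum p S L ∧
      ¬ (p : ℤ) ^ (v + 1) ∣ wsum p S L ∧
      ∀ E : Subgroup G, ElemAb p E → E ≤ R → E ≤ normalizer (L : Set G) →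
      ¬ E ≤ centralizer (L : Set G) →
      (p : ℤ) ^ (v + 1) ∣ ((L ⊓ centralizer (E : Set G)).relIndex L : ℤ) *
        wsum p S (L ⊓ centralizer (E : Set G)) := by
    intro L
    by_cases hL : L ∈ D
    · obtain ⟨k, hk, hk'⟩ := hloc L hL
      obtain ⟨v, hv, h1, h2⟩ := exact_val hk
      exact ⟨v, fun _ => ⟨h1, h2, fun E e1 e2 e3 e4 =>
        (pow_dvd_pow _ (Nat.add_le_add_right hv 1)).trans (hk' E e1 e2 e3 e4)⟩⟩
    · exact ⟨0, fun h => absurd h hL⟩
  choose v hv using hval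
  -- the sum over the complements
  set X : Finset (Subgroup G) :=
    (Set.toFinite {F | F ∈ ApB p G ∧ F ≤ Rz R D ∧ F ⊓ N = ⊥}).toFinset with hX
  have hmemX : ∀ F, F ∈ X ↔ F ∈ ApB p G ∧ F ≤ Rz R D ∧ F ⊓ N = ⊥ := fun F =>
    Set.Finite.mem_toFinset _
  set f : Subgroup G → ℤ := fun F => mb p F * ∏ L ∈ Df, wsum p S (L ⊓ centralizer (F : Set G))
    with hf
  have hsum : ∑ g ∈ (Set.toFinite (Sel D S)).toFinset, lam p (Rz R D) g = ∑ F ∈ X, f F := by
    have h1 := sum_attach (p := p) hNR (fun h hh => hD.gn_normal h (mem_Rz.1 hh).1)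
      (fun g => if ∀ L ∈ D, At S L g then (1 : ℤ) else 0)
    simp only [Int.cast_id] at h1
    have h2 : ∑ g ∈ (Set.toFinite (N : Set G)).toFinset,
        (if ∀ L ∈ D, At S L g then (1 : ℤ) else 0) * lam p (Rz R D) g =
        ∑ g ∈ (Set.toFinite (Sel D S)).toFinset, lam p (Rz R D) g := by
      have h3 : ∀ g ∈ (Set.toFinite (N : Set G)).toFinset,
          (if ∀ L ∈ D, At S L g then (1 : ℤ) else 0) * lam p (Rz R D) g =
          if ∀ L ∈ D, At S L g then lam p (Rz R D) g else 0 := by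
        intro g _
        split_ifs <;> simp
      rw [Finset.sum_congr rfl h3, ← Finset.sum_filter]
      refine Finset.sum_congr ?_ fun _ _ => rfl
      ext g
      rw [Finset.mem_filter, Set.Finite.mem_toFinset, Set.Finite.mem_toFinset]
      exact Iff.rfl
    rw [← h2, h1]
    refine Finset.sum_congr rfl fun F hF => ?_
    rw [hmemX] at hF
    rw [hD.sum_sel S hF.2.1]
  rw [hsum]
  have hbX : (⊥ : Subgroup G) ∈ X := (hmemX _).2 ⟨Or.inl rfl, bot_le, bot_inf_eq _⟩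
  rw [← Finset.add_sum_erase X f hbX]
  have hf0 : f ⊥ = ∏ L ∈ Df, wsum p S L := by
    have hmb : mb p (⊥ : Subgroup G) = 1 := if_pos rfl
    simp only [hf, hmb, one_mul, att_inf_bot]
  set m : ℤ := (p : ℤ) ^ (∑ L ∈ Df, v L + 1) with hm
  have hnd : ¬ m ∣ f ⊥ := by
    rw [hf0, hm]
    exact exact_prod Df v _ (fun L hL => (hv L ((hmemD L).1 hL)).1)
      (fun L hL => (hv L ((hmemD L).1 hL)).2.1)
  have hd : m ∣ ∑ F ∈ X.erase ⊥, f F := by
    have hnorm : ∀ F ∈ X, ∀ g ∈ N, cj g F ∈ X := by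
      intro F hF g hg
      rw [hmemX] at hF ⊢
      have hgN : cj g N = N := cj_eq_iff.2 (Subgroup.le_normalizer hg)
      have hgR : cj g (Rz R D) = Rz R D := cj_eq_iff.2 (Subgroup.le_normalizer (hNR hg))
      refine ⟨?_, ?_, ?_⟩
      · rcases hF.1 with h | h
        · left
          rw [h, cj, Subgroup.map_bot]
        · right
          exact cj_mem_ApS.2 h
      · rw [← hgR]
        exact cj_le.2 hF.2.1
      · rw [← hgN, eq_bot_iff]
        rintro x ⟨h1, h2⟩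
        obtain ⟨a, ha, rfl⟩ := h1
        obtain ⟨b, hb, hab⟩ := h2
        have hab' : b = a := (MulAut.conj g).injective hab
        subst hab'
        have h3 : b ∈ F ⊓ N := ⟨ha, hb⟩
        rw [hF.2.2, Subgroup.mem_bot] at h3
        rw [h3, map_one]
        exact one_mem _
    refine dvd_sum_orb (N := N) (X.erase ⊥) ?_ f ?_ m ?_
    · intro F hF g hg
      rw [Finset.mem_erase] at hF ⊢
      refine ⟨fun h => hF.1 ?_, hnorm F hF.2 g hg⟩
      have hb : cj g (⊥ : Subgroup G) = ⊥ := by rw [cj, Subgroup.map_bot]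
      exact cj_injective g (h.trans hb.symm)
    · intro F hF g hg
      simp only [hf]
      rw [mb_cj]
      congr 1
      refine Finset.prod_congr rfl fun L hL => ?_
      rw [hmemD] at hL
      rw [cj_inf_centralizer ((mem_Rz.1 (hNR hg)).2 L hL)]
      exact wsum_conj fun s hs => (stab_S hD.comm hSL g hg L hL s (Subgroup.mem_inf.1 hs).1).2
    · intro F hF
      rw [Finset.mem_erase, hmemX] at hF
      obtain ⟨hF0, hF1, hF2, hF3⟩ := hF
      have hFS : F ∈ ApS p G := hF1.resolve_left hF0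
      -- the size of the orbit
      have horb := card_orb (Q := N) (F := F)
        (fun x hx q hq => hD.gn_normal x (mem_Rz.1 (hF2 hx)).1 q hq)
        (fun x hx hxN => by
          have h3 : x ∈ F ⊓ N := ⟨hx, hxN⟩
          rw [hF3, Subgroup.mem_bot] at h3
          exact h3)
      have hcard1 := hD.card_prod hF2
      have hcard0 := hD.card_prod (F := ⊥) bot_le
      simp only [att_inf_bot] at hcard0
      have hrel : ∀ L ∈ Df, (Nat.card L : ℤ) =
          ((L ⊓ centralizer (F : Set G)).relIndex L : ℤ) *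
            (Nat.card (L ⊓ centralizer (F : Set G) : Subgroup G) : ℤ) := by
        intro L _
        have h1 := Subgroup.card_mul_index ((L ⊓ centralizer (F : Set G)).subgroupOf L)
        have h2 : Nat.card ((L ⊓ centralizer (F : Set G)).subgroupOf L) =
            Nat.card (L ⊓ centralizer (F : Set G) : Subgroup G) :=
          Nat.card_congr (Subgroup.subgroupOfEquivOfLe inf_le_left).toEquiv
        rw [h2] at h1
        rw [← h1, mul_comm]
        push_cast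
        rfl
      have hpos : (∏ L ∈ Df, (Nat.card (L ⊓ centralizer (F : Set G) : Subgroup G) : ℤ)) ≠ 0 :=
        Finset.prod_ne_zero_iff.2 fun L _ => by
          exact_mod_cast Nat.card_pos.ne'
      have horb' : (Nat.card {Y | ∃ g ∈ N, Y = cj g F} : ℤ) =
          ∏ L ∈ Df, ((L ⊓ centralizer (F : Set G)).relIndex L : ℤ) := by
        apply mul_right_cancel₀ hpos
        rw [← Finset.prod_mul_distrib, ← Finset.prod_congr rfl hrel, ← hcard1]
        rw [← hcard0]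
        exact_mod_cast horb
      rw [horb']
      simp only [hf]
      have hcalc : (∏ L ∈ Df, ((L ⊓ centralizer (F : Set G)).relIndex L : ℤ)) *
          (mb p F * ∏ L ∈ Df, wsum p S (L ⊓ centralizer (F : Set G))) =
          mb p F * ∏ L ∈ Df, (((L ⊓ centralizer (F : Set G)).relIndex L : ℤ) *
            wsum p S (L ⊓ centralizer (F : Set G))) := by
        rw [Finset.prod_mul_distrib]
        ring
      rw [hcalc]
      apply Dvd.dvd.mul_left
      obtain ⟨L, hL, hLF⟩ := hfaith F hFS (hF2.trans inf_le_left)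
      have hnz : ∀ M ∈ D, F ≤ normalizer (M : Set G) := fun M hM x hx =>
        (mem_Rz.1 (hF2 hx)).2 M hM
      refine strict_prod Df v _ ?_ ((hmemD L).2 hL)
        ((hv L hL).2.2 F hFS (hF2.trans inf_le_left) (hnz L hL) hLF)
      intro M hM
      rw [hmemD] at hM
      by_cases hMF : F ≤ centralizer (M : Set G)
      · have h1 : M ⊓ centralizer (F : Set G) = M :=
          inf_eq_left.2 (Subgroup.le_centralizer_iff.1 hMF)
        rw [h1, Subgroup.relIndex_self, Nat.cast_one, one_mul]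
        exact (hv M hM).1
      · exact (pow_dvd_pow _ (Nat.le_succ _)).trans
          ((hv M hM).2.2 F hFS (hF2.trans inf_le_left) (hnz M hM) hMF)
  intro h0
  apply hnd
  have h1 : f ⊥ = - ∑ F ∈ X.erase ⊥, f F := by linarith
  rw [h1]
  exact (dvd_neg).2 hd

/-- **The `p`-adic local criterion.** -/
theorem final8 [hp : Fact p.Prime] [Finite G] (F D : Set (Subgroup G)) (S : Set G)
    (hF : Family p F) (hDF : D ⊆ F)
    (hconj : ∀ L ∈ D, ∀ g : G, L.map (MulAut.conj g).toMonoidHom ∈ D)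
    (hS : ∀ L ∈ D, ∀ h ∈ Rest F D, h ^ p = 1 → h ∉ normalizer (L : Set G) → ∀ s ∈ S, s ∈ L →
      h * s * h⁻¹ ∈ S)
    (hSL : ∀ L ∈ D, ∀ g ∈ L, ∀ s ∈ S, s ∈ L → g * s * g⁻¹ ∈ S)
    (hloc : ∀ L ∈ D, PAdic p (Rest F D) S L)
    (hT : ∀ L ∈ F, L ∈ D ∨ Removable 𝕜 p L) : HQ 𝕜 p G := by
  refine prod_main hF hDF hconj hS hp.out.ne_zero.symm ?_ fun L hL => (hT L hL).imp_right Or.inl
  rw [Nat.cast_zero, zero_dvd_iff]
  refine (family_Fam hF hDF hconj).padic hSL ?_ hloc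
  intro E hE hER
  by_contra h
  push Not at h
  apply hE.1
  rw [eq_bot_iff]
  intro x hx
  rw [Subgroup.mem_bot]
  refine hF.faithful x (hE.2.2 x hx) fun L hL y hy => ?_
  by_cases hLD : L ∈ D
  · exact (mem_centralizer_iff.1 (h L hLD hx) y hy).symm
  · exact (mem_centralizer_iff.1 (mem_Rest.1 (hER hx) L hL hLD) y hy).symm

end

end Vale.Agent.P240.K
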