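import Vale.Agent.P240.W.Final

open Vale.Agent.P240 Vale.Agent.P240.K Subgroup

universe u v

namespace Vale.Agent.P240.K

theorem perm_result {𝕜 : Type v} [Field 𝕜] {p : ℕ} [Fact p.Prime] (G : Type u) [Group G]
    [Finite G] :
    (∀ (F D : Set (Subgroup G)) (S : Set G), Family p F →
      (∀ L ∈ D, ∀ h ∈ Rest F D, h ^ p = 1 → h ∉ normalizer (L : Set G) →
        ∀ s ∈ S, s ∈ L → h * s * h⁻¹ ∈ S) →
      (∀ z ∈ Sel D S, GoodElement p F D z) →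
      (∀ r : ℕ, r ≠ p → ¬ (r : ℤ) ∣ ∑ᶠ z ∈ Sel D S, euler p (Cent0 F D z) →
        (∀ L ∈ F, L ∈ D ∨ Removable 𝕜 p L ∨ (r.Prime ∧ FreeSub p r L)) → K.HQ 𝕜 p G) ∧
      ((Sel D S).Nonempty → (∀ z ∈ Sel D S, SolvableByCM p (Cent0 F D z)) →
        (∀ y ∈ Sel D S, ∀ z ∈ Sel D S, ∀ j k : ℕ, RankIs p (Cent0 F D y) j →
          RankIs p (Cent0 F D z) k → (Even j ↔ Even k)) →
        (∀ L ∈ F, L ∈ D ∨ Removable 𝕜 p L) → K.HQ 𝕜 p G)) ∧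
    (MinimalCounterexample 𝕜 p G →
      ∀ L : Subgroup G, ComponentLike p L → centralizer (L : Set G) ≠ ⊥ → ¬ FewOuter p L) :=
  ⟨fun F D S hF hS hgood => ⟨fun r hr hno hT => final5 F D S r hF hS hgood hr hno hT,
    fun hne hCM hpar hT =>
      final6 F D S hF hS hne (fun z hz => ⟨hgood z hz, hCM z hz⟩) hpar hT⟩, final4⟩

end Vale.Agent.P240.K
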