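import Vale.Agent.P240.W.Abs
import Vale.Agent.P240.W.Defs

/-!
P240-W6. Elementary abelian `p`-subgroups versus all nontrivial `p`-subgroups (fixed points of `x`).

Proof of `lam_eq`. Let `X` be the set on the right, `Y = {E | E ∈ Ain p K ∧ x ∈ normalizer E} ⊆ X`.
Claim: `eu Z = eu (Z ∩ Y)` for every `Z ⊆ X` closed under going down in `X`, by strong induction on
`Nat.card Z`: by `eu_rec`, `eu Z = 1 - ∑ P ∈ Z, eu {Q ∈ X | Q < P}` and by induction
`eu {Q ∈ X | Q < P} = eu {Q ∈ Y | Q < P}`; likewise `eu (Z ∩ Y) = 1 - ∑ P ∈ Z ∩ Y, eu {Q ∈ Y | Q < P}`; so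
it suffices that `eu {Q ∈ Y | Q < P} = 0` for `P ∈ X \ Y`. Let `Z₀` be the subgroup of all `z ∈ P`
with `z ^ p = 1` commuting with all elements of `P`; it is nontrivial (the centre of a nontrivial
finite `p`-group is nontrivial), it is normalized by `x`, so it lies in `Y`; `Z₀ < P` as `P ∉ Y`. The
map `E ↦ E ⊔ Z₀` is a reflection (`eu_reflect`) of `{Q ∈ Y | Q < P}` onto
`{Q ∈ Y | Q < P ∧ Z₀ ≤ Q}` (`sup_mem_ApS`; `E ⊔ Z₀ ≠ P` since `P` is not elementary abelian), which has
the least element `Z₀`, so `eu = 0` by `eu_bot`.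
-/

namespace Vale.Agent.P240.K

open Finsupp Subgroup

section
variable {α : Type*} [PartialOrder α]

/-- If the part of `Y` below every element of `X \ Y` has trivial Euler characteristic, then
`eu X = eu Y`. -/
lemma speq_eu_of_zero {X Y : Set α} (hX : X.Finite) (hYX : Y ⊆ X)
    (h0 : ∀ P ∈ X, P ∉ Y → eu {Q | Q ∈ Y ∧ Q < P} = 0) : eu X = eu Y := by
  classical
  have key : ∀ n : ℕ, ∀ Z : Set α, Z ⊆ X → (∀ P ∈ Z, ∀ Q ∈ X, Q ≤ P → Q ∈ Z) →
      Nat.card Z = n → eu Z = eu {Q | Q ∈ Z ∧ Q ∈ Y} := by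
    intro n
    induction n using Nat.strong_induction_on with
    | _ n ih =>
      intro Z hZ hdown hn
      have hZf : Z.Finite := hX.subset hZ
      have hZYf : {Q | Q ∈ Z ∧ Q ∈ Y}.Finite := hZf.subset fun Q hQ => hQ.1
      rw [eu_rec hZf, eu_rec hZYf]
      congr 1
      have e1 : ∀ P ∈ hZf.toFinset, eu {y | y ∈ Z ∧ y < P} = eu {y | y ∈ Y ∧ y < P} := by
        intro P hP
        have hPZ : P ∈ Z := by simpa using hP
        have hlt : Nat.card {y | y ∈ Z ∧ y < P} < n := by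
          rw [← hn]
          refine Set.Finite.card_lt_card hZf ?_
          refine ⟨fun y hy => hy.1, fun h => ?_⟩
          exact lt_irrefl P (h hPZ).2
        rw [ih _ hlt {y | y ∈ Z ∧ y < P} (fun y hy => hZ hy.1)
          (fun Q hQ R hR hRQ => ⟨hdown Q hQ.1 R hR hRQ, lt_of_le_of_lt hRQ hQ.2⟩) rfl]
        congr 1
        ext y
        constructor
        · rintro ⟨⟨_, h2⟩, h3⟩
          exact ⟨h3, h2⟩
        · rintro ⟨h1, h2⟩
          exact ⟨⟨hdown P hPZ y (hYX h1) h2.le, h2⟩, h1⟩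
      rw [Finset.sum_congr rfl e1]
      have e2 : ∀ P ∈ hZYf.toFinset,
          eu {y | y ∈ {Q | Q ∈ Z ∧ Q ∈ Y} ∧ y < P} = eu {y | y ∈ Y ∧ y < P} := by
        intro P hP
        have hPZ : P ∈ Z ∧ P ∈ Y := by simpa using hP
        congr 1
        ext y
        constructor
        · rintro ⟨⟨_, h2⟩, h3⟩
          exact ⟨h2, h3⟩
        · rintro ⟨h1, h2⟩
          exact ⟨⟨hdown P hPZ.1 y (hYX h1) h2.le, h1⟩, h2⟩
      rw [Finset.sum_congr rfl e2]
      symm
      refine Finset.sum_subset ?_ ?_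
      · intro P hP
        have hPZ : P ∈ Z ∧ P ∈ Y := by simpa using hP
        simpa using hPZ.1
      · intro P hP hP'
        have hPZ : P ∈ Z := by simpa using hP
        refine h0 P (hZ hPZ) fun hPY => hP' ?_
        simpa using And.intro hPZ hPY
  rw [key _ X subset_rfl (fun P _ Q hQ _ => hQ) rfl]
  congr 1
  ext y
  exact ⟨fun h => h.2, fun h => ⟨hYX h, h⟩⟩

end

section
variable {G : Type*} [Group G] {p : ℕ}

/-- the elements of order `p` (or `1`) in the centre of `P` -/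
def speqZ (p : ℕ) (P : Subgroup G) : Subgroup G where
  carrier := {z | z ∈ P ∧ (∀ y ∈ P, z * y = y * z) ∧ z ^ p = 1}
  one_mem' := ⟨one_mem _, fun y _ => by simp, one_pow _⟩
  mul_mem' := by
    rintro a b ⟨ha, ha1, ha2⟩ ⟨hb, hb1, hb2⟩
    refine ⟨mul_mem ha hb, fun y hy => ?_, ?_⟩
    · rw [mul_assoc, hb1 y hy, ← mul_assoc, ha1 y hy, mul_assoc]
    · have : Commute a b := ha1 b hb
      rw [this.mul_pow, ha2, hb2, one_mul]
  inv_mem' := by
    rintro a ⟨ha, ha1, ha2⟩
    refine ⟨inv_mem ha, fun y hy => ?_, by rw [inv_pow, ha2, inv_one]⟩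
    have : Commute a y := ha1 y hy
    exact this.inv_left

lemma speqZ_mem {P : Subgroup G} {z : G} :
    z ∈ speqZ p P ↔ z ∈ P ∧ (∀ y ∈ P, z * y = y * z) ∧ z ^ p = 1 := Iff.rfl

lemma speqZ_le (P : Subgroup G) : speqZ p P ≤ P := fun _ hz => hz.1

lemma speqZ_ne_bot [hp : Fact p.Prime] [Finite G] {P : Subgroup G} (hP : IsPGroup p P)
    (hP1 : P ≠ ⊥) : speqZ p P ≠ ⊥ := by
  have : Nontrivial P := (Subgroup.nontrivial_iff_ne_bot P).2 hP1
  have hc : Nontrivial (Subgroup.center P) := hP.center_nontrivial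
  have hcp : IsPGroup p (Subgroup.center P) := hP.to_subgroup _
  have hd : p ∣ Nat.card (Subgroup.center P) := by
    obtain ⟨n, hn⟩ := IsPGroup.iff_card.1 hcp
    have h1 : 1 < Nat.card (Subgroup.center P) := Finite.one_lt_card
    rcases n with _ | n
    · simp [hn] at h1
    · rw [hn]
      exact dvd_pow_self p (Nat.succ_ne_zero n)
  obtain ⟨z, hz⟩ := exists_prime_orderOf_dvd_card' p hd
  intro hb
  have hmem : ((z : P) : G) ∈ speqZ p P := by
    refine ⟨(z : P).2, fun y hy => ?_, ?_⟩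
    · have h1 := Subgroup.mem_center_iff.1 z.2 ⟨y, hy⟩
      exact (congrArg Subtype.val h1).symm
    · have h1 : z ^ p = 1 := by rw [← hz]; exact pow_orderOf_eq_one z
      have h2 := congrArg (fun t : Subgroup.center P => ((t : P) : G)) h1
      simpa using h2
  rw [hb, Subgroup.mem_bot] at hmem
  have h3 : z = 1 := by
    apply Subtype.ext
    apply Subtype.ext
    simpa using hmem
  rw [h3, orderOf_one] at hz
  exact hp.out.one_lt.ne hz

lemma speq_conj_mem {P : Subgroup G} {x : G} (hx : x ∈ normalizer (P : Set G)) {z : G} :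
    z ∈ P ↔ x * z * x⁻¹ ∈ P := by
  rw [Subgroup.mem_normalizer_iff] at hx
  exact hx z

lemma speqZ_norm {P : Subgroup G} {x : G} (hx : x ∈ normalizer (P : Set G)) :
    x ∈ normalizer ((speqZ p P : Subgroup G) : Set G) := by
  rw [Subgroup.mem_normalizer_iff]
  intro z
  rw [speqZ_mem, speqZ_mem, ← speq_conj_mem hx]
  refine and_congr_right fun hz => and_congr ?_ ?_
  · constructor
    · intro h y hy
      have hy' : x⁻¹ * y * x ∈ P := by
        rw [speq_conj_mem hx]
        simpa [mul_assoc] using hy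
      have h1 := h _ hy'
      calc x * z * x⁻¹ * y = x * (z * (x⁻¹ * y * x)) * x⁻¹ := by group
        _ = x * ((x⁻¹ * y * x) * z) * x⁻¹ := by rw [h1]
        _ = y * (x * z * x⁻¹) := by group
    · intro h y hy
      have h1 := h _ ((speq_conj_mem hx).1 hy)
      calc z * y = x⁻¹ * (x * z * x⁻¹ * (x * y * x⁻¹)) * x := by group
        _ = x⁻¹ * (x * y * x⁻¹ * (x * z * x⁻¹)) * x := by rw [h1]
        _ = y * z := by group
  · rw [conj_pow]
    constructor
    · intro h
      rw [h]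
      group
    · intro h
      calc z ^ p = x⁻¹ * (x * z ^ p * x⁻¹) * x := by group
        _ = 1 := by rw [h]; group

lemma speq_norm_sup {A B : Subgroup G} {x : G} (hA : x ∈ normalizer (A : Set G))
    (hB : x ∈ normalizer (B : Set G)) : x ∈ normalizer ((A ⊔ B : Subgroup G) : Set G) := by
  have h : ∀ {C : Subgroup G}, x ∈ normalizer (C : Set G) ↔
      C.map (MulAut.conj x).toMonoidHom = C := by
    intro C
    rw [Subgroup.mem_normalizer_iff]
    constructor
    · intro hC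
      ext z
      rw [Subgroup.mem_map]
      constructor
      · rintro ⟨y, hy, rfl⟩
        simpa using (hC y).1 hy
      · intro hz
        refine ⟨x⁻¹ * z * x, ?_, by simp [mul_assoc]⟩
        rw [hC]
        simpa [mul_assoc] using hz
    · intro hC z
      constructor
      · intro hz
        have : (MulAut.conj x).toMonoidHom z ∈ C.map (MulAut.conj x).toMonoidHom :=
          Subgroup.mem_map_of_mem _ hz
        rw [hC] at this
        simpa using this
      · intro hz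
        have hz' : x * z * x⁻¹ ∈ C.map (MulAut.conj x).toMonoidHom := by
          rw [hC]
          exact hz
        obtain ⟨y, hy, hyz⟩ := hz'
        have : y = z := by simpa using hyz
        rw [← this]
        exact hy
  rw [h] at hA hB ⊢
  rw [Subgroup.map_sup, hA, hB]

theorem lam_eq [hp : Fact p.Prime] [Finite G] (K : Subgroup G) (x : G) :
    lam p K x =
      eu {Q : Subgroup G | IsPGroup p Q ∧ Q ≠ ⊥ ∧ Q ≤ K ∧ x ∈ normalizer (Q : Set G)} := by
  rw [lam]
  symm
  refine speq_eu_of_zero (Set.toFinite _) ?_ ?_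
  · rintro E ⟨⟨h1, h2⟩, h3⟩
    exact ⟨ApS_isPGroup h1, h1.1, h2, h3⟩
  · rintro P ⟨hP, hP1, hPK, hPx⟩ hPY
    have hZ0 : speqZ p P ∈ ApS p G :=
      ⟨speqZ_ne_bot hP hP1, fun a ha b hb => ha.2.1 b hb.1, fun a ha => ha.2.2⟩
    have hne : ∀ E ∈ ApS p G, E ≤ P → E ≠ P := by
      rintro E hE _ rfl
      exact hPY ⟨⟨hE, hPK⟩, hPx⟩
    have hZlt : speqZ p P < P := lt_of_le_of_ne (speqZ_le P) (hne _ hZ0 (speqZ_le P))
    have hZx := speqZ_norm (p := p) hPx
    have hred := eu_reflect (fun E : Subgroup G => E ⊔ speqZ p P)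
      {Q | Q ∈ {E | E ∈ Ain p K ∧ x ∈ normalizer (E : Set G)} ∧ Q < P}
      {Q | (Q ∈ {E | E ∈ Ain p K ∧ x ∈ normalizer (E : Set G)} ∧ Q < P) ∧ speqZ p P ≤ Q}
      (Set.toFinite _) (fun Q hQ => hQ.1) ?_ (fun E _ => le_sup_left)
      (fun E _ F hF hEF => sup_le hEF hF.2)
    · rw [hred]
      refine eu_bot (Set.toFinite _) (m := speqZ p P) ?_ (fun Q hQ => hQ.2)
      exact ⟨⟨⟨⟨hZ0, hZlt.le.trans hPK⟩, hZx⟩, hZlt⟩, le_rfl⟩
    · rintro E ⟨⟨⟨hE, hEK⟩, hEx⟩, hEP⟩
      have hsup : E ⊔ speqZ p P ∈ ApS p G := sup_mem_ApS hE hZ0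
        fun a ha b hb => (hb.2.1 a (hEP.le ha)).symm
      have hle : E ⊔ speqZ p P ≤ P := sup_le hEP.le (speqZ_le P)
      exact ⟨⟨⟨⟨hsup, hle.trans hPK⟩, speq_norm_sup hEx hZx⟩,
        lt_of_le_of_ne hle (hne _ hsup hle)⟩, le_sup_right⟩

end

end Vale.Agent.P240.K
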