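import Vale.Agent.P240.W.Defs

/-!
P240-W8. Products of commuting centreless subgroups.

`sum_sup`: `(a, b) ↦ a * b` is a bijection of `A × B` onto `A ⊔ B` (elements of the join of two commuting
subgroups are products, `Subgroup.mem_sup'`-like lemmas for `A ≤ normalizer B`, or
`Subgroup.mul_normal`-style lemmas; injective since `A ⊓ B = ⊥`): use `Finset.sum_product'` and
`Finset.sum_bij`.
`Fam.gn_inf`: an element `x` of `Gn O ⊓ Gn O'` commutes with all elements of `Gn O` and of `Gn O'`. So it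
suffices: `x ∈ Gn O`, `O ⊆ D`, `x` commutes with all members of `O` implies `x = 1`; by
`Set.Finite.induction_on` for `O`: `Gn (insert L O) = L ⊔ Gn O`, `x = l * y` with `l ∈ L`, `y ∈ Gn O`; `x`
and `y` commute with `L`, so `l ∈ L ⊓ centralizer L = ⊥`, `x = y`.
`Fam.inf_centralizer`: `F` normalizes `Gn O` and `Gn O'`; if `x * y` commutes with `f ∈ F`,
`x ∈ Gn O`, `y ∈ Gn O'`, then `(f * x * f⁻¹) * (f * y * f⁻¹) = x * y`, so by uniqueness both `x` and `y`
commute with `f`.
-/

namespace Vale.Agent.P240.K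

open Finsupp Subgroup

section
variable {G : Type*} [Group G] {p : ℕ}

/-- the subgroup generated by the members of `O` -/
def Gn (O : Set (Subgroup G)) : Subgroup G := ⨆ L ∈ O, L

/-- a set of commuting centreless subgroups of `R`, of order divisible by `p`, permuted by `R` -/
structure Fam (p : ℕ) (R : Subgroup G) (D : Set (Subgroup G)) : Prop where
  le : ∀ L ∈ D, L ≤ R
  conj : ∀ L ∈ D, ∀ g ∈ R, cj g L ∈ D
  comm : ∀ L ∈ D, ∀ M ∈ D, L ≠ M → ∀ x ∈ L, ∀ y ∈ M, x * y = y * x
  centre : ∀ L ∈ D, L ⊓ centralizer (L : Set G) = ⊥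
  dvd : ∀ L ∈ D, p ∣ Nat.card L

/-- `g` acts on `L` like an element of `S ∩ L` -/
def At (S : Set G) (L : Subgroup G) (g : G) : Prop :=
  ∃ s ∈ S, s ∈ L ∧ s⁻¹ * g ∈ centralizer (L : Set G)

/-- the number of `L ∈ O` with `At S L g` -/
noncomputable def cnt (S : Set G) (O : Set (Subgroup G)) (g : G) : ℕ :=
  {L | L ∈ O ∧ At S L g}.ncard

private lemma w8_mem_sup {A B : Subgroup G} (hcomm : ∀ x ∈ A, ∀ y ∈ B, x * y = y * x) {z : G}
    (hz : z ∈ A ⊔ B) : ∃ a ∈ A, ∃ b ∈ B, z = a * b := by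
  let H : Subgroup G :=
    { carrier := {z | ∃ a ∈ A, ∃ b ∈ B, z = a * b}
      one_mem' := ⟨1, A.one_mem, 1, B.one_mem, (mul_one 1).symm⟩
      mul_mem' := by
        rintro _ _ ⟨a, ha, b, hb, rfl⟩ ⟨a', ha', b', hb', rfl⟩
        refine ⟨a * a', A.mul_mem ha ha', b * b', B.mul_mem hb hb', ?_⟩
        calc a * b * (a' * b') = a * (b * a') * b' := by group
          _ = a * (a' * b) * b' := by rw [hcomm a' ha' b hb]
          _ = a * a' * (b * b') := by group
      inv_mem' := by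
        rintro _ ⟨a, ha, b, hb, rfl⟩
        refine ⟨a⁻¹, A.inv_mem ha, b⁻¹, B.inv_mem hb, ?_⟩
        rw [mul_inv_rev]
        exact (hcomm _ (A.inv_mem ha) _ (B.inv_mem hb)).symm }
  have h : A ⊔ B ≤ H := sup_le
    (fun a ha => ⟨a, ha, 1, B.one_mem, (mul_one a).symm⟩)
    (fun b hb => ⟨1, A.one_mem, b, hb, (one_mul b).symm⟩)
  exact h hz

private lemma w8_unique {A B : Subgroup G} (hint : A ⊓ B = ⊥) {a a' b b' : G} (ha : a ∈ A)
    (ha' : a' ∈ A) (hb : b ∈ B) (hb' : b' ∈ B) (h : a * b = a' * b') : a = a' ∧ b = b' := by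
  have h1 : a'⁻¹ * a = b' * b⁻¹ := by
    rw [inv_mul_eq_iff_eq_mul, ← mul_assoc, ← h, mul_assoc, mul_inv_cancel, mul_one]
  have h2 : a'⁻¹ * a ∈ A ⊓ B :=
    ⟨A.mul_mem (A.inv_mem ha') ha, by rw [h1]; exact B.mul_mem hb' (B.inv_mem hb)⟩
  rw [hint, Subgroup.mem_bot] at h2
  have h3 : a = a' := (inv_mul_eq_one.1 h2).symm
  refine ⟨h3, ?_⟩
  rw [h3] at h
  exact mul_left_cancel h

lemma sum_sup [Finite G] {M : Type*} [AddCommMonoid M] {A B : Subgroup G}
    (hcomm : ∀ x ∈ A, ∀ y ∈ B, x * y = y * x) (hint : A ⊓ B = ⊥) (f : G → M) :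
    ∑ g ∈ (Set.toFinite ((A ⊔ B : Subgroup G) : Set G)).toFinset, f g =
      ∑ a ∈ (Set.toFinite (A : Set G)).toFinset,
        ∑ b ∈ (Set.toFinite (B : Set G)).toFinset, f (a * b) := by
  classical
  rw [← Finset.sum_product']
  symm
  refine Finset.sum_bij (fun q _ => q.1 * q.2) ?_ ?_ ?_ ?_
  · rintro ⟨a, b⟩ hq
    simp only [Finset.mem_product, Set.Finite.mem_toFinset, SetLike.mem_coe] at hq ⊢
    exact mul_mem (le_sup_left (a := A) (b := B) hq.1) (le_sup_right (a := A) (b := B) hq.2)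
  · rintro ⟨a, b⟩ hq ⟨a', b'⟩ hq' h
    simp only [Finset.mem_product, Set.Finite.mem_toFinset, SetLike.mem_coe] at hq hq'
    obtain ⟨h1, h2⟩ := w8_unique hint hq.1 hq'.1 hq.2 hq'.2 h
    rw [h1, h2]
  · intro z hz
    simp only [Set.Finite.mem_toFinset, SetLike.mem_coe] at hz
    obtain ⟨a, ha, b, hb, rfl⟩ := w8_mem_sup hcomm hz
    refine ⟨(a, b), ?_, rfl⟩
    simp only [Finset.mem_product, Set.Finite.mem_toFinset, SetLike.mem_coe]
    exact ⟨ha, hb⟩
  · intro q _
    rfl

lemma At_mul_right {S : Set G} {L : Subgroup G} {g k : G} (hk : k ∈ centralizer (L : Set G)) :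
    At S L (g * k) ↔ At S L g := by
  unfold At
  refine exists_congr fun s => and_congr_right fun _ => and_congr_right fun _ => ?_
  rw [← mul_assoc]
  exact Subgroup.mul_mem_cancel_right _ hk

lemma At_mul_left {S : Set G} {L : Subgroup G} {g k : G} (hk : k ∈ centralizer (L : Set G)) :
    At S L (k * g) ↔ At S L g := by
  unfold At
  refine exists_congr fun s => and_congr_right fun _ => and_congr_right fun hs => ?_
  have h1 : s⁻¹ * (k * g) = k * (s⁻¹ * g) := by
    rw [← mul_assoc, ← mul_assoc, Subgroup.mem_centralizer_iff.1 hk s⁻¹ (L.inv_mem hs)]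
  rw [h1]
  exact Subgroup.mul_mem_cancel_left _ hk

lemma Gn_union (O O' : Set (Subgroup G)) : Gn (O ∪ O') = Gn O ⊔ Gn O' := by
  unfold Gn
  exact iSup_union

lemma le_Gn {O : Set (Subgroup G)} {L : Subgroup G} (hL : L ∈ O) : L ≤ Gn O := by
  exact le_iSup₂_of_le L hL le_rfl

/-- an element permuting `O` normalizes `Gn O` -/
lemma mem_normalizer_Gn [Finite G] {O : Set (Subgroup G)} {g : G} (hg : ∀ L ∈ O, cj g L ∈ O) :
    g ∈ normalizer (Gn O : Set G) := by
  have h1 : (Gn O).map (MulAut.conj g).toMonoidHom ≤ Gn O := by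
    unfold Gn
    rw [Subgroup.map_iSup]
    refine iSup_le fun L => ?_
    rw [Subgroup.map_iSup]
    refine iSup_le fun hL => ?_
    exact le_Gn (hg L hL)
  have h2 : ∀ h ∈ Gn O, g * h * g⁻¹ ∈ Gn O := fun h hh =>
    h1 (Subgroup.mem_map.2 ⟨h, hh, rfl⟩)
  have h3 : Function.Surjective (fun h : Gn O => (⟨g * h * g⁻¹, h2 h h.2⟩ : Gn O)) := by
    refine Finite.surjective_of_injective fun a b hab => ?_
    have := congrArg Subtype.val hab
    simp only [mul_left_inj, mul_right_inj] at this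
    exact Subtype.ext this
  rw [Subgroup.mem_normalizer_iff]
  intro h
  refine ⟨fun hh => h2 h hh, fun hh => ?_⟩
  obtain ⟨⟨h', hh'⟩, he⟩ := h3 ⟨g * h * g⁻¹, hh⟩
  have := congrArg Subtype.val he
  simp only [mul_left_inj, mul_right_inj] at this
  rw [← this]
  exact hh'

lemma Fam.gn_comm {R : Subgroup G} {D O O' : Set (Subgroup G)} (hD : Fam p R D) (hO : O ⊆ D)
    (hO' : O' ⊆ D) (hdis : Disjoint O O') : ∀ x ∈ Gn O, ∀ y ∈ Gn O', x * y = y * x := by
  have h1 : Gn O ≤ centralizer (Gn O' : Set G) := by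
    unfold Gn
    refine iSup₂_le fun L hL => ?_
    rw [Subgroup.le_centralizer_iff]
    refine iSup₂_le fun M hM y hy => ?_
    rw [Subgroup.mem_centralizer_iff]
    intro x hx
    exact hD.comm L (hO hL) M (hO' hM) (fun h => Set.disjoint_left.1 hdis hL (h ▸ hM)) x hx y hy
  intro x hx y hy
  exact (Subgroup.mem_centralizer_iff.1 (h1 hx) y hy).symm

lemma Fam.gn_inf [Finite G] {R : Subgroup G} {D O O' : Set (Subgroup G)} (hD : Fam p R D)
    (hO : O ⊆ D) (hO' : O' ⊆ D) (hdis : Disjoint O O') : Gn O ⊓ Gn O' = ⊥ := by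
  have key : ∀ T : Set (Subgroup G), T.Finite → T ⊆ D → ∀ x ∈ Gn T,
      (∀ L ∈ T, ∀ l ∈ L, x * l = l * x) → x = 1 := by
    intro T hT
    induction T, hT using Set.Finite.induction_on with
    | empty =>
      intro _ x hx _
      unfold Gn at hx
      simpa using hx
    | @insert L T hLT hT ih =>
      intro hTD x hx hc
      have hcom : ∀ a ∈ L, ∀ b ∈ Gn T, a * b = b * a := by
        intro a ha b hb
        refine hD.gn_comm (O := {L}) (O' := T) ?_ ?_ ?_ a (le_Gn (Set.mem_singleton L) ha) b hb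
        · rw [Set.singleton_subset_iff]
          exact hTD (Set.mem_insert L T)
        · exact (Set.subset_insert L T).trans hTD
        · rw [Set.disjoint_singleton_left]
          exact hLT
      have h1 : Gn (insert L T) = L ⊔ Gn T := by
        unfold Gn
        exact iSup_insert
      rw [h1] at hx
      obtain ⟨l, hl, y, hy, rfl⟩ := w8_mem_sup hcom hx
      have h2 : l = 1 := by
        have h3 : l ∈ L ⊓ centralizer (L : Set G) := by
          refine ⟨hl, Subgroup.mem_centralizer_iff.2 fun z hz => ?_⟩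
          have h4 := hc L (Set.mem_insert L T) z hz
          have h5 := hcom z hz y hy
          have h6 : z * l * y = l * z * y := by
            calc z * l * y = z * (l * y) := by group
              _ = l * y * z := h4.symm
              _ = l * (y * z) := by group
              _ = l * (z * y) := by rw [h5]
              _ = l * z * y := by group
          exact mul_right_cancel h6
        rw [hD.centre L (hTD (Set.mem_insert L T))] at h3
        exact Subgroup.mem_bot.1 h3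
      subst h2
      rw [one_mul] at hc ⊢
      exact ih ((Set.subset_insert L T).trans hTD) y hy
        fun M hM l hl => hc M (Set.mem_insert_of_mem L hM) l hl
  rw [eq_bot_iff]
  intro x hx
  rw [Subgroup.mem_bot]
  exact key O (Set.toFinite O) hO x hx.1 fun L hL l hl =>
    (hD.gn_comm hO hO' hdis l (le_Gn hL hl) x hx.2).symm

lemma Fam.inf_centralizer [Finite G] {R : Subgroup G} {D O O' : Set (Subgroup G)}
    (hD : Fam p R D) (hO : O ⊆ D) (hO' : O' ⊆ D) (hdis : Disjoint O O') {F : Subgroup G}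
    (hF : ∀ f ∈ F, ∀ L ∈ O, cj f L ∈ O) (hF' : ∀ f ∈ F, ∀ L ∈ O', cj f L ∈ O') :
    Gn (O ∪ O') ⊓ centralizer (F : Set G) =
      (Gn O ⊓ centralizer (F : Set G)) ⊔ (Gn O' ⊓ centralizer (F : Set G)) := by
  have hcom := hD.gn_comm hO hO' hdis
  have hint := hD.gn_inf hO hO' hdis
  refine le_antisymm ?_ ?_
  · rintro z ⟨hz, hzc⟩
    have hz' : z ∈ Gn O ⊔ Gn O' := by
      rw [← Gn_union]
      exact hz
    obtain ⟨x, hx, y, hy, rfl⟩ := w8_mem_sup hcom hz'
    have key : ∀ f ∈ F, f * x = x * f ∧ f * y = y * f := by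
      intro f hf
      have h1 : f * x * f⁻¹ ∈ Gn O :=
        ((Subgroup.mem_normalizer_iff.1 (mem_normalizer_Gn (hF f hf))) x).1 hx
      have h2 : f * y * f⁻¹ ∈ Gn O' :=
        ((Subgroup.mem_normalizer_iff.1 (mem_normalizer_Gn (hF' f hf))) y).1 hy
      have h3 := Subgroup.mem_centralizer_iff.1 hzc f hf
      have h4 : (f * x * f⁻¹) * (f * y * f⁻¹) = x * y := by
        calc (f * x * f⁻¹) * (f * y * f⁻¹) = f * (x * y) * f⁻¹ := by group
          _ = x * y * f * f⁻¹ := by rw [h3]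
          _ = x * y := by group
      obtain ⟨h5, h6⟩ := w8_unique hint h1 hx h2 hy h4
      exact ⟨mul_inv_eq_iff_eq_mul.1 h5, mul_inv_eq_iff_eq_mul.1 h6⟩
    refine mul_mem (le_sup_left (a := Gn O ⊓ centralizer (F : Set G))
      (b := Gn O' ⊓ centralizer (F : Set G)) ⟨hx, ?_⟩)
      (le_sup_right (a := Gn O ⊓ centralizer (F : Set G))
      (b := Gn O' ⊓ centralizer (F : Set G)) ⟨hy, ?_⟩)
    · exact Subgroup.mem_centralizer_iff.2 fun f hf => (key f hf).1
    · exact Subgroup.mem_centralizer_iff.2 fun f hf => (key f hf).2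
  · rw [Gn_union]
    exact sup_le (inf_le_inf_right _ le_sup_left) (inf_le_inf_right _ le_sup_right)

lemma Fam.cnt_mul [Finite G] {R : Subgroup G} {D O O' : Set (Subgroup G)} (hD : Fam p R D)
    (hO : O ⊆ D) (hO' : O' ⊆ D) (hdis : Disjoint O O') (S : Set G) {x y : G} (hx : x ∈ Gn O)
    (hy : y ∈ Gn O') : cnt S (O ∪ O') (x * y) = cnt S O x + cnt S O' y := by
  have hcom := hD.gn_comm hO hO' hdis
  have e : {L | L ∈ O ∪ O' ∧ At S L (x * y)} =
      {L | L ∈ O ∧ At S L x} ∪ {L | L ∈ O' ∧ At S L y} := by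
    ext L
    simp only [Set.mem_union, Set.mem_ofPred_eq]
    constructor
    · rintro ⟨hL | hL, hA⟩
      · refine Or.inl ⟨hL, ?_⟩
        rwa [At_mul_right] at hA
        exact Subgroup.mem_centralizer_iff.2 fun z hz => hcom z (le_Gn hL hz) y hy
      · refine Or.inr ⟨hL, ?_⟩
        rwa [At_mul_left] at hA
        exact Subgroup.mem_centralizer_iff.2 fun z hz => (hcom x hx z (le_Gn hL hz)).symm
    · rintro (⟨hL, hA⟩ | ⟨hL, hA⟩)
      · refine ⟨Or.inl hL, ?_⟩
        rwa [At_mul_right]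
        exact Subgroup.mem_centralizer_iff.2 fun z hz => hcom z (le_Gn hL hz) y hy
      · refine ⟨Or.inr hL, ?_⟩
        rwa [At_mul_left]
        exact Subgroup.mem_centralizer_iff.2 fun z hz => (hcom x hx z (le_Gn hL hz)).symm
  unfold cnt
  rw [e]
  refine Set.ncard_union_eq ?_ (Set.toFinite _) (Set.toFinite _)
  rw [Set.disjoint_left]
  rintro L ⟨h1, _⟩ ⟨h2, _⟩
  exact Set.disjoint_left.1 hdis h1 h2

end

end Vale.Agent.P240.K
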