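import Vale.Agent.P240.W.Abs
import Vale.Agent.P240.W.Defs

/-!
P240-W2. Webb's theorem in Euler characteristic form, relative version.

Proof of `webb_rel` (`G` finite, everything inside `G`). Notation `Sp P H` for the finite set
`{Q | IsPGroup p Q ∧ P < Q ∧ Q ≤ H}` of subgroups of `G`, `fx x X` for `{Q ∈ X | x ∈ normalizer Q}`.
Strong induction on `Nat.card H - Nat.card P` (or on the index): let `P ≤ H`, `P` a `p`-group normal in
`H`. (If `Sp P H` is empty the sum is `Nat.card H`, since `eu ∅ = 1`.) By `eu_rec'`: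
`eu (fx x (Sp P H)) = 1 - ∑ Q ∈ fx x (Sp P H), eu {Q' ∈ fx x (Sp P H) | Q < Q'}`.
Sum over `x ∈ H` and exchange: `= card H - ∑ Q ∈ Sp P H, ∑ x ∈ N_H(Q), eu (fx x (Sp Q H))`, where
`N_H(Q) = H ⊓ normalizer Q`. For `x ∈ N_H(Q)`, the map `Q' ↦ Q' ⊓ normalizer Q` is a coreflection
(`eu_coreflect`) of `fx x (Sp Q H)` onto `fx x (Sp Q (N_H(Q)))`: `Q < Q'`, `Q'` a `p`-group, gives
`Q < Q' ⊓ normalizer Q` (normalizer condition for the finite `p`-group `Q'`, e.g.
`IsPGroup.isNilpotent` and `Group.normalizerCondition_of_isNilpotent`), and `x` normalizes `Q` hence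
`normalizer Q`. So the inner sum is the left side for the pair `(Q, N_H(Q))`, which has a smaller
measure: it is `0` if `Sp Q (N_H(Q))` is nonempty and `card (N_H(Q))` otherwise. `Sp Q (N_H(Q))` is
empty iff `Q` is a Sylow `p`-subgroup of `H` (same normalizer condition; a maximal `p`-subgroup of
`H`). As `Sp P H` is nonempty, the Sylow `p`-subgroups of `H` all lie in `Sp P H` (they contain `P`,
which is a normal `p`-subgroup of `H`, and they are not equal to `P`), and
`∑ Q Sylow, card (N_H(Q)) = card H` (all conjugate, orbit-stabilizer; e.g. `Sylow.card_eq_index_normalizer`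
in the group `H`, or count pairs). Total `card H - card H = 0`.
-/

namespace Vale.Agent.P240.K

open Finsupp Subgroup

section
variable {G : Type*} [Group G] {p : ℕ}

lemma w2_nc [hp : Fact p.Prime] [Finite G] {Q R : Subgroup G} (hR : IsPGroup p R) (h : Q < R) :
    Q < R ⊓ normalizer (Q : Set G) := by
  have hnil : Group.IsNilpotent R := hR.isNilpotent
  have hnc : NormalizerCondition R := Group.normalizerCondition_of_isNilpotent
  have h1 : Q.subgroupOf R < ⊤ := by
    rw [lt_top_iff_ne_top]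
    intro h2
    rw [subgroupOf_eq_top] at h2
    exact absurd (h.le.antisymm h2) h.ne
  have h2 := hnc _ h1
  rw [← subgroupOf_normalizer_eq h.le] at h2
  obtain ⟨y, hy1, hy2⟩ := SetLike.exists_of_lt h2
  rw [mem_subgroupOf] at hy1 hy2
  refine lt_of_le_of_ne (le_inf h.le le_normalizer) fun h3 => hy2 ?_
  rw [h3]
  exact ⟨y.2, hy1⟩

lemma w2_conj {A B : Subgroup G} {x : G} (hA : x ∈ normalizer (A : Set G)) (hB : x ∈ B) :
    x ∈ normalizer ((A ⊓ B : Subgroup G) : Set G) := by
  rw [mem_normalizer_iff] at hA ⊢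
  intro h
  have h1 : h ∈ B ↔ x * h * x⁻¹ ∈ B := by
    rw [Subgroup.mul_mem_cancel_right B (inv_mem hB), Subgroup.mul_mem_cancel_left B hB]
  show h ∈ A ⊓ B ↔ x * h * x⁻¹ ∈ A ⊓ B
  rw [mem_inf, mem_inf, ← h1]
  have := hA h
  exact and_congr_left fun _ => this

/-- the sum of the orders of the normalizers of the Sylow subgroups -/
lemma w2_syl (H : Type*) [Group H] [Finite H] [hp : Fact p.Prime] [Fintype (Sylow p H)] :
    ∑ S : Sylow p H, Nat.card (normalizer (S : Set H)) = Nat.card H := by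
  have h1 : ∀ S : Sylow p H, Nat.card (normalizer (S : Set H)) * Nat.card (Sylow p H) =
      Nat.card H := by
    intro S
    rw [S.card_eq_index_normalizer]
    exact Subgroup.card_mul_index _
  have h2 : (∑ S : Sylow p H, Nat.card (normalizer (S : Set H))) * Nat.card (Sylow p H) =
      Nat.card H * Nat.card (Sylow p H) := by
    rw [Finset.sum_mul, Finset.sum_congr rfl fun S _ => h1 S, Finset.sum_const,
      Finset.card_univ, ← Nat.card_eq_fintype_card, smul_eq_mul, mul_comm]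
  exact Nat.eq_of_mul_eq_mul_right Nat.card_pos h2

lemma w2_card {H : Subgroup G} (S : Subgroup H) :
    Nat.card (H ⊓ normalizer ((S.map H.subtype : Subgroup G) : Set G) : Subgroup G) =
      Nat.card (normalizer (S : Set H)) := by
  have h1 : (S.map H.subtype).subgroupOf H = S := by
    rw [subgroupOf, comap_map_eq_self_of_injective H.subtype_injective]
  have h2 := subgroupOf_normalizer_eq (map_subtype_le S)
  rw [h1] at h2
  have h3 : H ⊓ normalizer ((S.map H.subtype : Subgroup G) : Set G) =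
      (normalizer (S : Set H)).map H.subtype := by
    rw [← h2, subgroupOf_map_subtype, inf_comm]
  rw [h3]
  exact (Nat.card_congr (Subgroup.equivMapOfInjective _ _ H.subtype_injective).toEquiv).symm

lemma w2_set [hp : Fact p.Prime] [Finite G] {P H : Subgroup G} (hPH : P ≤ H)
    (hP : IsPGroup p P) (hn : H ≤ normalizer (P : Set G))
    (hex : ∃ Q : Subgroup G, IsPGroup p Q ∧ P < Q ∧ Q ≤ H) (Q : Subgroup G) :
    (IsPGroup p Q ∧ P < Q ∧ Q ≤ H ∧ ¬ ∃ Q' : Subgroup G, IsPGroup p Q' ∧ Q < Q' ∧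
      Q' ≤ H ⊓ normalizer (Q : Set G)) ↔ ∃ S : Sylow p H, (S : Subgroup H).map H.subtype = Q := by
  constructor
  · rintro ⟨h1, h2, h3, h4⟩
    obtain ⟨S, hS⟩ := (h1.comap_subtype (K := H)).exists_le_sylow
    refine ⟨S, ?_⟩
    have h5 : Q ≤ (S : Subgroup H).map H.subtype := by
      intro y hy
      exact ⟨⟨y, h3 hy⟩, hS hy, rfl⟩
    by_contra hne
    have h6 : Q < (S : Subgroup H).map H.subtype := lt_of_le_of_ne h5 (Ne.symm hne)
    have h7 : IsPGroup p ((S : Subgroup H).map H.subtype) := S.isPGroup'.map _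
    refine h4 ⟨_, h7.to_le inf_le_left, w2_nc h7 h6, ?_⟩
    exact inf_le_inf_right _ (map_subtype_le _)
  · rintro ⟨S, rfl⟩
    have hPn : (P.subgroupOf H).Normal := (normal_subgroupOf_iff_le_normalizer hPH).2 hn
    have h0 : IsPGroup p (P.subgroupOf H) := hP.comap_subtype (K := H)
    have h1 : P.subgroupOf H ≤ S := h0.le_sylow_of_normal S
    have h2 : P ≤ (S : Subgroup H).map H.subtype := by
      intro y hy
      exact ⟨⟨y, hPH hy⟩, h1 hy, rfl⟩
    have hmax : ∀ Q' : Subgroup G, IsPGroup p Q' → (S : Subgroup H).map H.subtype ≤ Q' →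
        Q' ≤ H → Q' ≤ (S : Subgroup H).map H.subtype := by
      intro Q' hQ' hle hQH
      have h3 : (S : Subgroup H) ≤ Q'.subgroupOf H := by
        intro y hy
        exact hle ⟨y, hy, rfl⟩
      have h4 := S.is_maximal' (hQ'.comap_subtype (K := H)) h3
      intro y hy
      refine ⟨⟨y, hQH hy⟩, ?_, rfl⟩
      have h5 : (⟨y, hQH hy⟩ : H) ∈ Q'.subgroupOf H := hy
      have h6 : Q'.subgroupOf H = (S : Subgroup H) := h4
      rw [h6] at h5
      exact h5
    refine ⟨S.isPGroup'.map _, lt_of_le_of_ne h2 ?_, map_subtype_le _, ?_⟩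
    · intro h3
      obtain ⟨Q, hQ, hPQ, hQH⟩ := hex
      have := hmax Q hQ (h3 ▸ hPQ.le) hQH
      rw [← h3] at this
      exact absurd hPQ (not_lt_of_ge this)
    · rintro ⟨Q', hQ', hlt, hle⟩
      exact absurd hlt (not_lt_of_ge (hmax Q' hQ' hlt.le (hle.trans inf_le_left)))

/-- the fixed points of `x` on the `p`-subgroups between `P` and `H` -/
def w2S (p : ℕ) (P H : Subgroup G) (x : G) : Set (Subgroup G) :=
  {Q : Subgroup G | IsPGroup p Q ∧ P < Q ∧ Q ≤ H ∧ x ∈ normalizer (Q : Set G)}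

lemma w2_coreflect [hp : Fact p.Prime] [Finite G] {Q H : Subgroup G} {x : G}
    (hx : x ∈ normalizer (Q : Set G)) :
    eu (w2S p Q H x) = eu (w2S p Q (H ⊓ normalizer (Q : Set G)) x) := by
  refine eu_coreflect (fun R => R ⊓ normalizer (Q : Set G)) _ _ _ (Set.toFinite _) rfl ?_ ?_ ?_ ?_
  · rintro R ⟨h1, h2, h3, h4⟩
    exact ⟨h1, h2, h3.trans inf_le_left, h4⟩
  · rintro R ⟨h1, h2, h3, h4⟩
    exact ⟨h1.to_le inf_le_left, w2_nc h1 h2, inf_le_inf_right _ h3, w2_conj h4 hx⟩
  · intro R _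
    exact inf_le_left
  · rintro R _ R' ⟨_, _, h3, _⟩ hle
    exact le_inf hle (h3.trans inf_le_right)

lemma w2_rec [Finite G] (P H : Subgroup G) (x : G) :
    eu (w2S p P H x) = 1 - ∑ Q ∈ (Set.toFinite (w2S p P H x)).toFinset, eu (w2S p Q H x) := by
  rw [eu_rec' (Set.toFinite _)]
  congr 1
  refine Finset.sum_congr rfl fun Q hQ => ?_
  rw [Set.Finite.mem_toFinset] at hQ
  congr 1
  ext R
  constructor
  · rintro ⟨⟨h1, h2, h3, h4⟩, h5⟩
    exact ⟨h1, h5, h3, h4⟩
  · rintro ⟨h1, h2, h3, h4⟩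
    exact ⟨⟨h1, hQ.2.1.trans h2, h3, h4⟩, h2⟩

/-- the orbit sum -/
noncomputable def w2W (p : ℕ) [Finite G] (P H : Subgroup G) : ℤ :=
  ∑ x ∈ (Set.toFinite (H : Set G)).toFinset, eu (w2S p P H x)

/-- the `p`-subgroups between `P` and `H` -/
def w2P (p : ℕ) (P H : Subgroup G) : Set (Subgroup G) :=
  {Q : Subgroup G | IsPGroup p Q ∧ P < Q ∧ Q ≤ H}

lemma w2_sum [hp : Fact p.Prime] [Finite G] (P H : Subgroup G) :
    w2W p P H = Nat.card H - ∑ Q ∈ (Set.toFinite (w2P p P H)).toFinset,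
      w2W p Q (H ⊓ normalizer (Q : Set G)) := by
  classical
  unfold w2W
  rw [Finset.sum_congr rfl fun x _ => w2_rec P H x, Finset.sum_sub_distrib]
  congr 1
  · rw [Finset.sum_const, ← Nat.card_eq_card_finite_toFinset]
    simp
  · have h1 : ∀ x ∈ (Set.toFinite (H : Set G)).toFinset,
        ∑ Q ∈ (Set.toFinite (w2S p P H x)).toFinset, eu (w2S p Q H x) =
        ∑ Q ∈ (Set.toFinite (w2P p P H)).toFinset,
          if x ∈ normalizer (Q : Set G) then eu (w2S p Q H x) else 0 := by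
      intro x _
      rw [← Finset.sum_filter]
      refine Finset.sum_congr ?_ fun _ _ => rfl
      ext Q
      rw [Finset.mem_filter, Set.Finite.mem_toFinset, Set.Finite.mem_toFinset]
      exact ⟨fun h => ⟨⟨h.1, h.2.1, h.2.2.1⟩, h.2.2.2⟩,
        fun h => ⟨h.1.1, h.1.2.1, h.1.2.2, h.2⟩⟩
    rw [Finset.sum_congr rfl h1, Finset.sum_comm]
    refine Finset.sum_congr rfl fun Q _ => ?_
    rw [← Finset.sum_filter]
    have h2 : ((Set.toFinite (H : Set G)).toFinset.filter fun x => x ∈ normalizer (Q : Set G)) =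
        (Set.toFinite ((H ⊓ normalizer (Q : Set G) : Subgroup G) : Set G)).toFinset := by
      ext x
      rw [Finset.mem_filter, Set.Finite.mem_toFinset, Set.Finite.mem_toFinset]
      exact Iff.rfl
    rw [h2]
    refine Finset.sum_congr rfl fun x hx => ?_
    rw [Set.Finite.mem_toFinset] at hx
    exact w2_coreflect hx.2

lemma w2_empty [hp : Fact p.Prime] [Finite G] (P H : Subgroup G)
    (h : ¬ ∃ Q : Subgroup G, IsPGroup p Q ∧ P < Q ∧ Q ≤ H) : w2W p P H = Nat.card H := by
  rw [w2_sum]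
  have : (Set.toFinite (w2P p P H)).toFinset = ∅ := by
    rw [Finset.eq_empty_iff_forall_notMem]
    intro Q hQ
    rw [Set.Finite.mem_toFinset] at hQ
    exact h ⟨Q, hQ⟩
  rw [this, Finset.sum_empty, sub_zero]

lemma w2_main [hp : Fact p.Prime] [Finite G] : ∀ (n : ℕ) (P H : Subgroup G), P ≤ H →
    IsPGroup p P → H ≤ normalizer (P : Set G) → Nat.card H - Nat.card P ≤ n →
    (∃ Q : Subgroup G, IsPGroup p Q ∧ P < Q ∧ Q ≤ H) → w2W p P H = 0 := by
  classical
  intro n
  induction n with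
  | zero =>
    intro P H hPH _ _ hn hex
    obtain ⟨Q, _, h1, h2⟩ := hex
    have h3 : Nat.card P < Nat.card Q := Set.Finite.card_lt_card (Set.toFinite _) h1
    have h4 : Nat.card Q ≤ Nat.card H := Subgroup.card_le_of_le h2
    omega
  | succ n ih =>
    intro P H hPH hP hn hc hex
    have : Fintype (Sylow p H) := Fintype.ofFinite _
    rw [w2_sum]
    have h1 : ∀ Q ∈ (Set.toFinite (w2P p P H)).toFinset,
        w2W p Q (H ⊓ normalizer (Q : Set G)) =
          if (∃ Q' : Subgroup G, IsPGroup p Q' ∧ Q < Q' ∧ Q' ≤ H ⊓ normalizer (Q : Set G))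
          then 0 else (Nat.card (H ⊓ normalizer (Q : Set G) : Subgroup G) : ℤ) := by
      intro Q hQ
      rw [Set.Finite.mem_toFinset] at hQ
      obtain ⟨h1, h2, h3⟩ := hQ
      split_ifs with h4
      · have h5 : Nat.card P < Nat.card Q := Set.Finite.card_lt_card (Set.toFinite _) h2
        have h6 : Q ≤ H ⊓ normalizer (Q : Set G) := le_inf h3 le_normalizer
        have h7 : Nat.card Q ≤ Nat.card (H ⊓ normalizer (Q : Set G) : Subgroup G) :=
          Subgroup.card_le_of_le h6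
        have h8 : Nat.card (H ⊓ normalizer (Q : Set G) : Subgroup G) ≤ Nat.card H :=
          Subgroup.card_le_of_le inf_le_left
        exact ih Q _ h6 h1 inf_le_right (by omega) h4
      · exact w2_empty _ _ h4
    rw [Finset.sum_congr rfl h1, Finset.sum_ite, Finset.sum_const_zero, zero_add, sub_eq_zero,
      ← w2_syl (p := p) H]
    push_cast
    refine Finset.sum_bij (fun S _ => (S : Subgroup H).map H.subtype) ?_ ?_ ?_ ?_
    · intro S _
      have h2 := (w2_set hPH hP hn hex _).2 ⟨S, rfl⟩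
      rw [Finset.mem_filter, Set.Finite.mem_toFinset]
      exact ⟨⟨h2.1, h2.2.1, h2.2.2.1⟩, h2.2.2.2⟩
    · intro S _ T _ h2
      exact Sylow.ext (Subgroup.map_injective H.subtype_injective h2)
    · intro Q hQ
      rw [Finset.mem_filter, Set.Finite.mem_toFinset] at hQ
      obtain ⟨⟨h2, h3, h4⟩, h5⟩ := hQ
      obtain ⟨S, hS⟩ := (w2_set hPH hP hn hex Q).1 ⟨h2, h3, h4, h5⟩
      exact ⟨S, Finset.mem_univ _, hS⟩
    · intro S _
      rw [w2_card]
      rfl

theorem webb_rel [hp : Fact p.Prime] [Finite G] (P H : Subgroup G) (hPH : P ≤ H)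
    (hP : IsPGroup p P) (hn : H ≤ normalizer (P : Set G))
    (hex : ∃ Q : Subgroup G, IsPGroup p Q ∧ P < Q ∧ Q ≤ H) :
    ∑ x ∈ (Set.toFinite (H : Set G)).toFinset,
      eu {Q : Subgroup G | IsPGroup p Q ∧ P < Q ∧ Q ≤ H ∧ x ∈ normalizer (Q : Set G)} = 0 :=
  w2_main _ P H hPH hP hn le_rfl hex

end

end Vale.Agent.P240.K
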